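import Vale.Agent.P268.Z.Asm
import Vale.Agent.P268.T.S708.Stair

/-!
# P268: the algebraic theorem with Euclid chains and common summands
-/

namespace Vale.Agent.P268.Z

open Matrix

set_option synthInstance.maxSize 2000

/-- `Star` with increasing chains and at least `K` summands `z ^ 3` on both sides. -/
def StarE (K : ℕ) : Prop :=
  ∃ (m n : ℕ) (F : Fin m → List ℕ) (G : Fin n → List ℕ),
    2 ≤ m ∧ 2 ≤ n ∧ (∀ i, F i ≠ []) ∧ (∀ i, G i ≠ []) ∧
    (∀ i, ∀ a ∈ F i, 2 ≤ a) ∧ (∀ i, ∀ a ∈ G i, 2 ≤ a) ∧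
    (∀ i, ∃ (l : List ℕ) (x : ℕ), F i = l ++ [x] ∧ 3 ≤ x) ∧
    (∃ i, F i = [3]) ∧ (∃ i, G i = [2]) ∧
    ∑ i, (F i).length = ∑ i, (G i).length ∧ 4 ≤ ∑ i, (F i).length ∧
    Congruent (seifert F) (seifert G) ∧
    (∀ i, (F i).IsChain (· < ·)) ∧ (∀ i, (G i).IsChain (· < ·)) ∧
    (∃ e : Fin K ↪ Fin m, ∀ k, F (e k) = [3]) ∧ (∃ e : Fin K ↪ Fin n, ∀ k, G (e k) = [3])

theorem StarE.star {K : ℕ} (h : StarE K) : Star := by
  obtain ⟨m, n, F, G, h1, h2, h3, h4, h5, h6, h7, h8, h9, h10, h11, h12, _⟩ := h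
  exact ⟨m, n, F, G, h1, h2, h3, h4, h5, h6, h7, h8, h9, h10, h11, h12⟩

/-- `StarE` from families over arbitrary finite index types. -/
theorem StarE.of_fintype {K : ℕ} {ι κ : Type} [Fintype ι] [DecidableEq ι] [Fintype κ]
    [DecidableEq κ] (F : ι → List ℕ) (G : κ → List ℕ) (hι : 2 ≤ Fintype.card ι)
    (hκ : 2 ≤ Fintype.card κ)
    (hF0 : ∀ i, F i ≠ []) (hG0 : ∀ i, G i ≠ [])
    (hF : ∀ i, ∀ a ∈ F i, 2 ≤ a) (hG : ∀ i, ∀ a ∈ G i, 2 ≤ a)
    (hF3 : ∀ i, ∃ (l : List ℕ) (x : ℕ), F i = l ++ [x] ∧ 3 ≤ x)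
    (h3 : ∃ i, F i = [3]) (h2 : ∃ i, G i = [2])
    (hN : ∑ i, (F i).length = ∑ i, (G i).length) (h4 : 4 ≤ ∑ i, (F i).length)
    (hFG : Congruent (seifert F) (seifert G))
    (hFc : ∀ i, (F i).IsChain (· < ·)) (hGc : ∀ i, (G i).IsChain (· < ·))
    (hFK : ∃ e : Fin K ↪ ι, ∀ k, F (e k) = [3]) (hGK : ∃ e : Fin K ↪ κ, ∀ k, G (e k) = [3]) :
    StarE K := by
  let e := (Fintype.equivFin ι).symm
  let e' := (Fintype.equivFin κ).symm
  refine ⟨Fintype.card ι, Fintype.card κ, fun i => F (e i), fun i => G (e' i), hι, hκ,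
    fun i => hF0 _, fun i => hG0 _, fun i => hF _, fun i => hG _, fun i => hF3 _, ?_, ?_, ?_, ?_,
    ?_, fun i => hFc _, fun i => hGc _, ?_, ?_⟩
  · obtain ⟨i, hi⟩ := h3
    exact ⟨e.symm i, by simpa using hi⟩
  · obtain ⟨i, hi⟩ := h2
    exact ⟨e'.symm i, by simpa using hi⟩
  · rw [Equiv.sum_comp e (fun i => (F i).length), Equiv.sum_comp e' (fun i => (G i).length), hN]
  · rw [Equiv.sum_comp e (fun i => (F i).length)]
    exact h4
  · exact (congruent_seifert_equiv e F).trans (hFG.trans (congruent_seifert_equiv e' G).symm)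
  · obtain ⟨j, hj⟩ := hFK
    exact ⟨j.trans e.symm.toEmbedding, fun k => by simpa using hj k⟩
  · obtain ⟨j, hj⟩ := hGK
    exact ⟨j.trans e'.symm.toEmbedding, fun k => by simpa using hj k⟩

/-! ### Part A with the Euclid property -/

theorem good_chain {c : List ℕ} (h : GoodChain c) : c.IsChain (· < ·) := by
  obtain ⟨u, v, _, _, _, rfl⟩ := h
  exact eu_isChain u v

theorem partA_auxE (hD : Odd 14367) (W : List ((ℕ × ℕ) × ℤ)) (hW : Adm W)
    (hsum : 0 < (W.map Prod.snd).sum)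
    (hpsi : ∀ k : ℕ, ((W.map fun p => psi k (wt p.1) ^ p.2).prod) ^ 2 = 1)
    (hcot : ∀ κ : ℕ, κ.Coprime 14367 → Odd κ →
      ((W.map fun p => Real.cot (Real.pi * κ * (wt p.1 : ℝ) / 2) ^ p.2).prod) ^ 2 = 1) :
    ∃ (a b : ℕ) (f : Fin a → List ℕ) (g : Fin b → List ℕ)
    (hf : ∀ i, ChainOK 14367 (f i)) (hg : ∀ i, ChainOK 14367 (g i)),
    (∀ i, ∃ (l : List ℕ) (x : ℕ), f i = l ++ [x] ∧ 3 ≤ x) ∧
    (∑ i, (g i).length < ∑ i, (f i).length) ∧
    GForm.Iso
      (((sumForm 14367 hD f hf).mul (sumForm 14367 hD f hf)).map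
        (Int.castRingHom ℝ))
      (((sumForm 14367 hD g hg).mul (sumForm 14367 hD g hg)).map
        (Int.castRingHom ℝ)) ∧
    (∀ i, (f i).IsChain (· < ·)) ∧ (∀ i, (g i).IsChain (· < ·)) := by
  have g1 := good_mem hW 1
  have g2 := good_mem hW (-1)
  have G1 : ∀ i, GoodChain ((mkList W 1).get i) := fun i => g1 _ (List.get_mem _ _)
  have G2 : ∀ i, GoodChain ((mkList W (-1)).get i) := fun i => g2 _ (List.get_mem _ _)
  refine ⟨(mkList W 1).length, (mkList W (-1)).length, (mkList W 1).get, (mkList W (-1)).get,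
    fun i => good_ok (G1 i), fun i => good_ok (G2 i), fun i => good_last (G1 i), ?_, ?_,
    fun i => good_chain (G1 i), fun i => good_chain (G2 i)⟩
  · rw [sum_get, sum_get, sum_mkList, sum_mkList]
    have := sum_lcontr W hW
    omega
  · refine iso_of_num hD _ _ _ _ (fun i => good_int (G1 i)) (fun i => good_int (G2 i)) ?_ ?_
    · intro k
      have := prod_sq_eq (psi k) W hW (hpsi k)
      rw [← prod_get, ← prod_get] at this
      exact this
    · intro k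
      by_cases hc : (2 * k + 14367).Coprime 14367
      · right
        refine ⟨fun i => good_den (G1 i) hc, fun i => good_den (G2 i) hc, ?_⟩
        have hodd : Odd (2 * k + 14367) := ⟨k + 7183, by ring⟩
        have := prod_sq_eq (fun w : ℚ => Real.cot (Real.pi * ((2 * k + 14367 : ℕ) : ℝ) * (w : ℝ) / 2))
          W hW (hcot _ hc hodd)
        rw [← prod_get, ← prod_get] at this
        exact this
      · left
        exact ⟨killer_mem W 1 hc, killer_mem W (-1) hc⟩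

theorem partAE : ∃ (a b : ℕ) (f : Fin a → List ℕ) (g : Fin b → List ℕ)
    (hf : ∀ i, ChainOK 14367 (f i)) (hg : ∀ i, ChainOK 14367 (g i)),
    (∀ i, ∃ (l : List ℕ) (x : ℕ), f i = l ++ [x] ∧ 3 ≤ x) ∧
    (∑ i, (g i).length < ∑ i, (f i).length) ∧
    GForm.Iso
      (((sumForm 14367 (by decide) f hf).mul (sumForm 14367 (by decide) f hf)).map
        (Int.castRingHom ℝ))
      (((sumForm 14367 (by decide) g hg).mul (sumForm 14367 (by decide) g hg)).map
        (Int.castRingHom ℝ)) ∧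
    (∀ i, (f i).IsChain (· < ·)) ∧ (∀ i, (g i).IsChain (· < ·)) :=
  partA_auxE _ wList wList_range wList_sum wList_psi wList_cot

/-- **Theorem (⋆)** with increasing chains and `K` common summands `z ^ 3`. -/
theorem starE (K : ℕ) : StarE K := by
  obtain ⟨a, b, f, g, hf, hg, hlast, hlt, hR, hfc, hgc⟩ := partAE
  have hsq : Squarefree 14367 := by
    rw [show 14367 = 3 * 4789 by norm_num, Nat.squarefree_mul (by norm_num)]
    exact ⟨(Nat.prime_iff.mp (by norm_num)).squarefree, (Nat.prime_iff.mp (by norm_num)).squarefree⟩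
  obtain ⟨k, m, hk, h⟩ := assembly (D := 14367) (by decide) (by norm_num) hsq
    (by norm_num) f g hf hg hR
  obtain ⟨q, hq⟩ : ∃ q, q = 4 * k * (∑ i, (f i).length - ∑ i, (g i).length) := ⟨_, rfl⟩
  have hq4 : 4 ≤ q := by
    rw [hq]
    have : 1 ≤ k * (∑ i, (f i).length - ∑ i, (g i).length) := Nat.mul_pos hk (by omega)
    calc 4 = 4 * 1 := rfl
      _ ≤ 4 * (k * (∑ i, (f i).length - ∑ i, (g i).length)) := Nat.mul_le_mul_left _ this
      _ = _ := by ring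
  let F0 : BigIdx k m (Fin a) ⊕ Fin (K + 2) → List ℕ :=
    Sum.elim (bigFam k m 14367 f) fun _ => [3]
  let G0 : (BigIdx k m (Fin b) ⊕ Fin (K + 2)) ⊕ Fin q → List ℕ :=
    Sum.elim (Sum.elim (bigFam k m 14367 g) fun _ => [3]) fun _ => [2]
  have hF0 : ∀ i, F0 i ≠ [] ∧ (∀ x ∈ F0 i, 2 ≤ x) ∧ (F0 i).IsChain (· < ·) := by
    rintro (i | i)
    · exact bigFam_forall k m _ f (fun c => c ≠ [] ∧ (∀ x ∈ c, 2 ≤ x) ∧ c.IsChain (· < ·))
        (fun i => ⟨(hf i).ne, (hf i).two, hfc i⟩) (by simp) (by simp) i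
    · simp [F0]
  have hG0 : ∀ i, G0 i ≠ [] ∧ (∀ x ∈ G0 i, 2 ≤ x) ∧ (G0 i).IsChain (· < ·) := by
    rintro ((i | i) | i)
    · exact bigFam_forall k m _ g (fun c => c ≠ [] ∧ (∀ x ∈ c, 2 ≤ x) ∧ c.IsChain (· < ·))
        (fun i => ⟨(hg i).ne, (hg i).two, hgc i⟩) (by simp) (by simp) i
    · simp [G0]
    · simp [G0]
  have hF0l : ∀ i, ∃ (l : List ℕ) (x : ℕ), F0 i = l ++ [x] ∧ 3 ≤ x := by
    rintro (i | i)
    · exact bigFam_forall k m _ f (fun c => ∃ (l : List ℕ) (x : ℕ), c = l ++ [x] ∧ 3 ≤ x)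
        hlast ⟨[], 14367, rfl, by norm_num⟩ ⟨[], 5, rfl, by norm_num⟩ i
    · exact ⟨[], 3, rfl, le_rfl⟩
  have hlenF : ∑ i, (F0 i).length = 4 * k * ∑ i, (f i).length + 3 * m + 1 + (K + 2) := by
    rw [Fintype.sum_sum_type]
    change ∑ i, (bigFam k m 14367 f i).length + ∑ i : Fin (K + 2), [3].length = _
    rw [bigFam_length]
    simp
  have hlenG : ∑ i, (G0 i).length = 4 * k * ∑ i, (g i).length + 3 * m + 1 + (K + 2) + q := by
    rw [Fintype.sum_sum_type, Fintype.sum_sum_type]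
    change ∑ i, (bigFam k m 14367 g i).length + ∑ i : Fin (K + 2), [3].length +
      ∑ i : Fin q, [2].length = _
    rw [bigFam_length]
    simp
  have hcong : CongR (seifert F0) (seifert G0) := by
    refine CongR.trans ?_ (seifert_add_two (ν := Fin q)
      (Sum.elim (bigFam k m 14367 g) fun _ : Fin (K + 2) => [3])).symm
    exact (seifert_sum _ _).trans ((h.kron (CongR.refl _)).trans (seifert_sum _ _).symm)
  refine StarE.of_fintype F0 G0 ?_ ?_ (fun i => (hF0 i).1) (fun i => (hG0 i).1)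
    (fun i => (hF0 i).2.1) (fun i => (hG0 i).2.1) hF0l ⟨Sum.inr 0, rfl⟩
    ⟨Sum.inr ⟨0, by omega⟩, rfl⟩ ?_ ?_ hcong (fun i => (hF0 i).2.2) (fun i => (hG0 i).2.2)
    ⟨⟨fun k => Sum.inr (Fin.castAdd 2 k), fun x y hxy => Fin.castAdd_injective _ _
      (Sum.inr_injective hxy)⟩, fun _ => rfl⟩
    ⟨⟨fun k => Sum.inl (Sum.inr (Fin.castAdd 2 k)), fun x y hxy => Fin.castAdd_injective _ _
      (Sum.inr_injective (Sum.inl_injective hxy))⟩, fun _ => rfl⟩
  · rw [Fintype.card_sum, Fintype.card_fin]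
    omega
  · rw [Fintype.card_sum, Fintype.card_fin]
    omega
  · rw [hlenF, hlenG, hq, Nat.mul_sub]
    have : 4 * k * ∑ i, (g i).length ≤ 4 * k * ∑ i, (f i).length :=
      Nat.mul_le_mul_left _ hlt.le
    omega
  · rw [hlenF]
    have : 1 ≤ k * ∑ i, (f i).length := Nat.mul_pos hk (by omega)
    nlinarith

/-- The disproof of Zariski's multiplicity conjecture, from the topological classification of the
sums of Euclid chain polynomials with many summands `z ^ 3` (`zetaF` version: the Seifert matrix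
is replaced by the zeta matrix of the staircase). -/
theorem zariski_of_starE (K : ℕ)
    (top : ∀ (m n N : ℕ) (F : Fin m → List ℕ) (G : Fin n → List ℕ) (e : Vars F ≃ Fin N)
      (e' : Vars G ≃ Fin N), 4 ≤ N → (∀ i, F i ≠ []) → (∀ i, G i ≠ []) →
      (∀ i, ∀ a ∈ F i, 2 ≤ a) → (∀ i, ∀ a ∈ G i, 2 ≤ a) →
      (∀ i, (F i).IsChain (· < ·)) → (∀ i, (G i).IsChain (· < ·)) →
      (∃ e : Fin K ↪ Fin m, ∀ k, F (e k) = [3]) → (∃ e : Fin K ↪ Fin n, ∀ k, G (e k) = [3]) →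
      Congruent (zetaF F) (zetaF G) →
      AmbHomeo (fun z : Fin N → ℂ => sumFun F (z ∘ e)) (fun z => sumFun G (z ∘ e'))) :
    ∃ (N : ℕ) (f g : (Fin N → ℂ) → ℂ), Red f ∧ Red g ∧ AmbHomeo f g ∧ mult f ≠ mult g := by
  obtain ⟨m, n, F, G, hm, hn, hF0, hG0, hF, hG, hF3, h3, h2, hN, h4, hFG, hFc, hGc, hFK, hGK⟩ :=
    starE K
  have hcF : Fintype.card (Vars F) = ∑ i, (F i).length := by simp [Vars]
  have hcG : Fintype.card (Vars G) = ∑ i, (F i).length := by simp [Vars, hN]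
  let e := Fintype.equivFinOfCardEq hcF
  let e' := Fintype.equivFinOfCardEq hcG
  refine ⟨∑ i, (F i).length, fun z => sumFun F (z ∘ e), fun z => sumFun G (z ∘ e'), ?_, ?_, ?_, ?_⟩
  · exact red_sumFun F _ hF (i := ⟨0, by omega⟩) (i' := ⟨1, by omega⟩) (by simp) (hF0 _) (hF0 _)
  · exact red_sumFun G _ hG (i := ⟨0, by omega⟩) (i' := ⟨1, by omega⟩) (by simp) (hG0 _) (hG0 _)
  · exact top m n _ F G e e' h4 hF0 hG0 hF hG hFc hGc hFK hGK
      (Congruent.zeta hF hFc hG hGc hFG)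
  · rw [mult_eq_three F _ hF hF3 h3, mult_eq_two G _ hG h2]
    decide

end Vale.Agent.P268.Z
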