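import Vale.Agent.P268.T.A306.TauCore

/-!
# P268, topological half: regularity of links off the coordinate lines
-/

set_option linter.unusedSectionVars false

namespace Vale.Agent.P268.T

open Set Filter Topology

namespace Tau

/-! ### Frames -/

/-- Coordinates of `c` in the frame `f`. -/
noncomputable def fr (f c : ℂ) : ℂ := (starRingEnd ℂ) f * c

theorem inner_frame (a : ℝ) (f c : ℂ) : inner ℝ (a • f) c = a * (fr f c).re := by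
  rw [inner_complex]
  simp only [fr, Complex.mul_re, Complex.conj_re, Complex.conj_im, Complex.smul_re,
    Complex.smul_im, smul_eq_mul]
  ring

theorem inner_frame_I (a : ℝ) (f c : ℂ) : inner ℝ (a • (Complex.I * f)) c = a * (fr f c).im := by
  rw [inner_complex]
  simp only [fr, Complex.mul_re, Complex.mul_im, Complex.conj_re, Complex.conj_im,
    Complex.smul_re, Complex.smul_im, smul_eq_mul, Complex.I_re, Complex.I_im]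
  ring

theorem norm_fr {f : ℂ} (hf : ‖f‖ = 1) (c : ℂ) : ‖fr f c‖ = ‖c‖ := by
  unfold fr
  rw [norm_mul, RCLike.norm_conj, hf, one_mul]

theorem sq_fr {f : ℂ} (hf : ‖f‖ = 1) (c : ℂ) : (fr f c).re ^ 2 + (fr f c).im ^ 2 = ‖c‖ ^ 2 := by
  rw [← norm_fr hf c, Complex.sq_norm, Complex.normSq_apply]; ring

theorem abs_fr_re {f : ℂ} (hf : ‖f‖ = 1) (c : ℂ) : |(fr f c).re| ≤ ‖c‖ := by
  rw [← norm_fr hf c]; exact Complex.abs_re_le_norm _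

theorem abs_fr_im {f : ℂ} (hf : ‖f‖ = 1) (c : ℂ) : |(fr f c).im| ≤ ‖c‖ := by
  rw [← norm_fr hf c]; exact Complex.abs_im_le_norm _

theorem fr_change {f : ℂ} (hf : ‖f‖ = 1) (g c : ℂ) :
    fr g c = (starRingEnd ℂ) (fr f g) * fr f c := by
  unfold fr
  have h1 : f * (starRingEnd ℂ) f = 1 := by
    rw [Complex.mul_conj, Complex.normSq_eq_norm_sq, hf]; simp
  rw [map_mul, Complex.conj_conj]
  calc (starRingEnd ℂ) g * c = (starRingEnd ℂ) g * c * (f * (starRingEnd ℂ) f) := by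
        rw [h1, mul_one]
    _ = _ := by ring

theorem fr_change_re {f : ℂ} (hf : ‖f‖ = 1) (g c : ℂ) :
    (fr g c).re = (fr f g).re * (fr f c).re + (fr f g).im * (fr f c).im := by
  rw [fr_change hf g c, Complex.mul_re, Complex.conj_re, Complex.conj_im]; ring

theorem fr_change_im {f : ℂ} (hf : ‖f‖ = 1) (g c : ℂ) :
    (fr g c).im = -(fr f g).im * (fr f c).re + (fr f g).re * (fr f c).im := by
  rw [fr_change hf g c, Complex.mul_im, Complex.conj_re, Complex.conj_im]; ring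

/-- Directions. -/
noncomputable def dirL (f : ℂ) (a b : ℝ) : ℂ →L[ℝ] ℂ :=
  (a • (Complex.reCLM.comp (ContinuousLinearMap.mul ℝ ℂ ((starRingEnd ℂ) f)))).smulRight (1 : ℂ) +
    (b • (Complex.imCLM.comp (ContinuousLinearMap.mul ℝ ℂ ((starRingEnd ℂ) f)))).smulRight
      Complex.I

theorem dirL_apply (f : ℂ) (a b : ℝ) (c : ℂ) :
    dirL f a b c = ⟨a * (fr f c).re, b * (fr f c).im⟩ := by
  apply Complex.ext <;> simp [dirL, fr]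

theorem norm_dirL_le {f : ℂ} (hf : ‖f‖ = 1) (a b : ℝ) : ‖dirL f a b‖ ≤ |a| + |b| := by
  refine ContinuousLinearMap.opNorm_le_bound _ (by positivity) fun c => ?_
  rw [dirL_apply]
  refine (Complex.norm_le_abs_re_add_abs_im _).trans ?_
  simp only [abs_mul]
  have h1 := abs_fr_re hf c
  have h2 := abs_fr_im hf c
  nlinarith [mul_le_mul_of_nonneg_left h1 (abs_nonneg a),
    mul_le_mul_of_nonneg_left h2 (abs_nonneg b)]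

theorem inner_Elin (v₀ v v' : ℝ × ℝ × ℝ × ℝ × ℝ) (c : ℂ) : inner ℝ (Elin v₀ v v') c =
    v₀.1 * ((v'.2.1 - v.2.1) - (v'.2.2.1 - v.2.2.1)) * (fr (ei v₀.2.2.2.1) c).re +
    v₀.1 * (v₀.2.1 - v₀.2.2.1) * (v'.2.2.2.1 - v.2.2.2.1) * (fr (ei v₀.2.2.2.1) c).im +
    (v'.2.2.1 - v.2.2.1) * (fr (ei v₀.2.2.2.2) c).re +
    v₀.2.2.1 * (v'.2.2.2.2 - v.2.2.2.2) * (fr (ei v₀.2.2.2.2) c).im := by
  unfold Elin
  rw [inner_add_left, inner_add_left, inner_add_left, inner_frame, inner_frame_I, inner_frame,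
    inner_frame_I]

/-! ### Exponentials -/

theorem exp_lin {ε : ℝ} (hε : 0 < ε) : ∃ δ > 0, ∀ a b : ℝ, |a| < δ → |b| < δ →
    |Real.exp b - Real.exp a - (b - a)| ≤ ε * |b - a| := by
  have h1 : HasStrictDerivAt Real.exp (Real.exp 0) 0 := Real.hasStrictDerivAt_exp 0
  rw [Real.exp_zero] at h1
  have h2 := h1.hasStrictFDerivAt.isLittleO.def hε
  rw [nhds_prod_eq, eventually_prod_iff] at h2
  obtain ⟨pa, ha, pb, hb, hab⟩ := h2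
  obtain ⟨δ, hδ, hball⟩ := Metric.eventually_nhds_iff_ball.mp (ha.and hb)
  refine ⟨δ, hδ, fun a b h3 h4 => ?_⟩
  have h5 := hab (hball b (by rw [mem_ball_zero_iff]; exact h4)).1
    (hball a (by rw [mem_ball_zero_iff]; exact h3)).2
  simpa using h5

theorem cexp_lin {ε : ℝ} (hε : 0 < ε) : ∃ δ > 0, ∀ a b : ℂ, ‖a‖ < δ → ‖b‖ < δ →
    ‖Complex.exp b - Complex.exp a‖ ≤ (1 + ε) * ‖b - a‖ := by
  have h1 : HasStrictDerivAt Complex.exp (Complex.exp 0) 0 := Complex.hasStrictDerivAt_exp 0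
  rw [Complex.exp_zero] at h1
  have h2 := h1.hasStrictFDerivAt.isLittleO.def hε
  rw [nhds_prod_eq, eventually_prod_iff] at h2
  obtain ⟨pa, ha, pb, hb, hab⟩ := h2
  obtain ⟨δ, hδ, hball⟩ := Metric.eventually_nhds_iff_ball.mp (ha.and hb)
  refine ⟨δ, hδ, fun a b h3 h4 => ?_⟩
  have h5 := hab (hball b (by rw [mem_ball_zero_iff]; exact h4)).1
    (hball a (by rw [mem_ball_zero_iff]; exact h3)).2
  have h6 : Complex.exp b - Complex.exp a =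
      (Complex.exp b - Complex.exp a - (b - a)) + (b - a) := by ring
  rw [h6]
  refine (norm_add_le _ _).trans ?_
  have h7 : ‖Complex.exp b - Complex.exp a - (b - a)‖ ≤ ε * ‖b - a‖ := by simpa using h5
  linarith

/-! ### The main criterion -/

variable {Θ : Type*} [TopologicalSpace Θ] {E : Type*} [NormedAddCommGroup E] [NormedSpace ℝ E]

theorem LipNear.congr {Z : Type*} [NormedAddCommGroup Z] {s : Set Θ} {F G : Θ → E → Z}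
    {t₀ : Θ} {x₀ : E} (h : LipNear s F t₀ x₀)
    (hFG : ∀ᶠ t in 𝓝[s] t₀, ∀ x, F t x = G t x) : LipNear s G t₀ x₀ := by
  obtain ⟨L, U, hU, h1⟩ := h
  refine ⟨L, U, hU, ?_⟩
  filter_upwards [h1, hFG] with t e1 e2 x hx y hy
  rw [← e2, ← e2]
  exact e1 x hx y hy

theorem reg_main {s : Set Θ} {K : ℝ} {τ : Θ → ℝ} {W : Θ → ℝ → ℝ} {Ω : Θ → ℝ → ℝ → ℝ}
    (h : PhFam s K τ W Ω) {B : E × ℂ → ℂ} {L : ℝ} (hL : 0 ≤ L)
    (hB : ∀ X y y', ‖B (X, y) - B (X, y')‖ ≤ L * ‖y - y'‖) {y₀ z₀ : ℂ} (hy : y₀ ≠ 0)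
    (hz : z₀ ≠ 0) {l : ℝ} (hl : 0 ≤ l) {θ₀ : Θ} (hθ₀ : θ₀ ∈ s) (P Q : ℂ →L[ℝ] ℂ) {ν : ℝ}
    (hν : L * ‖y₀‖ * ‖P‖ < ν)
    (hmono : ∀ ε > 0, ∃ U ∈ 𝓝 (0 : ℂ × ℂ), ∀ᶠ θ in 𝓝[s] θ₀, ∀ x ∈ U, ∀ c,
      x + (P.prod Q) c ∈ U → (ν - ε) * ‖c‖ ^ 2 ≤
        inner ℝ (Elin (vv l y₀ z₀ τ W Ω θ₀ 0) (vv l y₀ z₀ τ W Ω θ x)
          (vv l y₀ z₀ τ W Ω θ (x + (P.prod Q) c))) c) (X₀ : E) :
    RegAt s (fun θ (p : (E × ℂ) × ℂ) => B p.1 + plk l (τ θ) (W θ) (Ω θ) p.1.2 p.2) θ₀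
      ((X₀, y₀), z₀) := by
  set A : ℂ →L[ℝ] ℂ × ℂ := P.prod Q with hA
  set gap : ℝ := ν - L * ‖y₀‖ * ‖P‖ with hgap
  have hgap0 : 0 < gap := by rw [hgap]; linarith
  have hM : 0 < L * ‖y₀‖ * ‖P‖ + 1 + ‖A‖ := by positivity
  set ε : ℝ := gap / (2 * (L * ‖y₀‖ * ‖P‖ + 1 + ‖A‖)) with hε
  have hε0 : 0 < ε := by positivity
  have hsum : ε * (L * ‖y₀‖ * ‖P‖ + 1 + ‖A‖) = gap / 2 := by
    rw [hε]; field_simp
  obtain ⟨δ, hδ, hexp⟩ := cexp_lin hε0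
  -- `B` in logarithmic coordinates
  have hBl : ∀ X : E, ∀ p p' : ℂ, ‖p‖ < δ → ‖p'‖ < δ →
      ‖B (X, y₀ * Complex.exp p') - B (X, y₀ * Complex.exp p)‖ ≤
        L * ‖y₀‖ * ((1 + ε) * ‖p' - p‖) := by
    intro X p p' hp hp'
    refine (hB X _ _).trans ?_
    rw [← mul_sub, norm_mul, mul_assoc]
    exact mul_le_mul_of_nonneg_left (mul_le_mul_of_nonneg_left (hexp p p' hp hp')
      (norm_nonneg _)) hL
  -- the family in logarithmic coordinates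
  have hcongr : ∀ᶠ tb : Θ × E in 𝓝[s ×ˢ (univ : Set E)] (θ₀, X₀), ∀ p : ℂ × ℂ,
      B (tb.2, y₀ * Complex.exp p.1) + Gf (vv l y₀ z₀ τ W Ω tb.1 p) =
      B (tb.2, y₀ * Complex.exp p.1) + plk l (τ tb.1) (W tb.1) (Ω tb.1) (y₀ * Complex.exp p.1)
        (z₀ * Complex.exp p.2) := by
    filter_upwards [self_mem_nhdsWithin] with tb htb p
    rw [plk_exp h hy hz l htb.1]
  have hfst : Tendsto (Prod.fst : Θ × E → Θ) (𝓝[s ×ˢ (univ : Set E)] (θ₀, X₀)) (𝓝[s] θ₀) :=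
    continuousWithinAt_fst.tendsto_nhdsWithin fun p hp => hp.1
  have hLipG : LipNear (s ×ˢ (univ : Set E)) (fun (tb : Θ × E) (p : ℂ × ℂ) =>
      Gf (vv l y₀ z₀ τ W Ω tb.1 p)) (θ₀, X₀) 0 := by
    obtain ⟨C, U, hU, h1⟩ := lipNear_Gf h y₀ z₀ hl hθ₀
    exact ⟨C, U, hU, hfst.eventually h1⟩
  have hLipB : LipNear (s ×ˢ (univ : Set E)) (fun (tb : Θ × E) (p : ℂ × ℂ) =>
      B (tb.2, y₀ * Complex.exp p.1)) (θ₀, X₀) 0 := by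
    refine ⟨L * ‖y₀‖ * (1 + ε), Metric.ball 0 δ, Metric.ball_mem_nhds _ hδ,
      Eventually.of_forall fun tb p hp p' hp' => ?_⟩
    rw [mem_ball_zero_iff] at hp hp'
    refine (hBl tb.2 p'.1 p.1 ((norm_fst_le p').trans_lt hp') ((norm_fst_le p).trans_lt hp)).trans
      ?_
    rw [← mul_assoc]
    exact mul_le_mul_of_nonneg_left (norm_fst_le (p - p')) (by positivity)
  have hLip := hLipB.add hLipG
  have hreg : RegAt (s ×ˢ (univ : Set E)) (fun (tb : Θ × E) (p : ℂ × ℂ) =>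
      B (tb.2, y₀ * Complex.exp p.1) + Gf (vv l y₀ z₀ τ W Ω tb.1 p)) (θ₀, X₀) 0 := by
    obtain ⟨U1, hU1, h1⟩ := incr h y₀ z₀ hl hθ₀ hε0
    obtain ⟨U2, hU2, h2⟩ := hmono ε hε0
    refine of_mono hLip (half_pos hgap0) A
      ⟨U1 ∩ U2 ∩ Metric.ball 0 δ, inter_mem (inter_mem hU1 hU2) (Metric.ball_mem_nhds _ hδ), ?_⟩
    filter_upwards [hfst.eventually h1, hfst.eventually h2] with tb e1 e2 x hx c hc
    have hx3 := hx.2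
    have hc3 := hc.2
    rw [mem_ball_zero_iff] at hx3 hc3
    have e3 := e1 x hx.1.1 _ hc.1.1
    have e4 := e2 x hx.1.2 c hc.1.2
    have e5 := hBl tb.2 x.1 (x + A c).1 ((norm_fst_le x).trans_lt hx3)
      ((norm_fst_le (x + A c)).trans_lt hc3)
    rw [add_sub_cancel_left] at e3
    have e6 : (x + A c).1 - x.1 = P c := by simp [hA]
    rw [e6] at e5
    have e7 : ‖P c‖ ≤ ‖P‖ * ‖c‖ := P.le_opNorm c
    have e8 : ‖A c‖ ≤ ‖A‖ * ‖c‖ := A.le_opNorm c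
    set dB := B (tb.2, y₀ * Complex.exp (x + A c).1) - B (tb.2, y₀ * Complex.exp x.1) with hdB
    set dG := Gf (vv l y₀ z₀ τ W Ω tb.1 (x + A c)) - Gf (vv l y₀ z₀ τ W Ω tb.1 x) with hdG
    set EE := Elin (vv l y₀ z₀ τ W Ω θ₀ 0) (vv l y₀ z₀ τ W Ω tb.1 x)
      (vv l y₀ z₀ τ W Ω tb.1 (x + A c)) with hEE
    have e9 : B (tb.2, y₀ * Complex.exp (x + A c).1) + Gf (vv l y₀ z₀ τ W Ω tb.1 (x + A c)) -
        (B (tb.2, y₀ * Complex.exp x.1) + Gf (vv l y₀ z₀ τ W Ω tb.1 x)) =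
        dB + (dG - EE) + EE := by rw [hdB, hdG]; ring
    show gap / 2 * ‖c‖ ^ 2 ≤ inner ℝ (B (tb.2, y₀ * Complex.exp (x + A c).1) +
      Gf (vv l y₀ z₀ τ W Ω tb.1 (x + A c)) -
        (B (tb.2, y₀ * Complex.exp x.1) + Gf (vv l y₀ z₀ τ W Ω tb.1 x))) c
    rw [e9, inner_add_left, inner_add_left]
    have f1 : -(‖dB‖ * ‖c‖) ≤ inner ℝ dB c := (abs_le.mp (abs_real_inner_le_norm dB c)).1
    have f2 : -(‖dG - EE‖ * ‖c‖) ≤ inner ℝ (dG - EE) c :=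
      (abs_le.mp (abs_real_inner_le_norm _ c)).1
    have hc0 := norm_nonneg c
    have f3 : ‖dB‖ ≤ L * ‖y₀‖ * ((1 + ε) * (‖P‖ * ‖c‖)) := by
      refine e5.trans (mul_le_mul_of_nonneg_left ?_ (by positivity))
      exact mul_le_mul_of_nonneg_left e7 (by positivity)
    have f4 : ‖dG - EE‖ ≤ ε * (‖A‖ * ‖c‖) := e3.trans (mul_le_mul_of_nonneg_left e8 hε0.le)
    have f5 := mul_le_mul_of_nonneg_right f3 hc0
    have f6 := mul_le_mul_of_nonneg_right f4 hc0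
    have f7 : gap / 2 * ‖c‖ ^ 2 = (gap - ε * (L * ‖y₀‖ * ‖P‖ + 1 + ‖A‖)) * ‖c‖ ^ 2 := by
      rw [hsum]; ring
    rw [f7]
    have f8 : gap = ν - L * ‖y₀‖ * ‖P‖ := hgap
    rw [f8]
    nlinarith
  have hfin : RegAt (s ×ˢ (univ : Set E)) (fun (tb : Θ × E) (v : ℂ × ℂ) =>
      B (tb.2, v.1) + plk l (τ tb.1) (W tb.1) (Ω tb.1) v.1 v.2) (θ₀, X₀) (y₀, z₀) := by
    refine of_log hy hz ?_ ?_
    · exact hreg.congr ⟨univ, univ_mem, hcongr.mono fun tb h p _ => h p⟩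
    · exact LipNear.congr hLip hcongr
  exact RegAt.pull (s := s) (π := fun x : (E × ℂ) × ℂ => x.1.1)
    (q := fun x : (E × ℂ) × ℂ => (x.1.2, x.2)) (S := univ)
    (ι := ((ContinuousLinearMap.inr ℝ E ℂ).comp (ContinuousLinearMap.fst ℝ ℂ ℂ)).prod
      (ContinuousLinearMap.snd ℝ ℂ ℂ)) (t₀ := θ₀) (x₀ := ((X₀, y₀), z₀))
    (by fun_prop) (by fun_prop) univ_mem (fun _ _ => mem_univ _)
    (fun x _ v _ => by simp) (fun x _ v _ => Prod.ext (by simp) (by simp))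
    (f := fun t b v => B (b, v.1) + plk l (τ t) (W t) (Ω t) v.1 v.2) hfin

/-- The main criterion, in terms of real increments. -/
theorem reg_crit {s : Set Θ} {K : ℝ} {τ : Θ → ℝ} {W : Θ → ℝ → ℝ} {Ω : Θ → ℝ → ℝ → ℝ}
    (h : PhFam s K τ W Ω) {B : E × ℂ → ℂ} {L : ℝ} (hL : 0 ≤ L)
    (hB : ∀ X y y', ‖B (X, y) - B (X, y')‖ ≤ L * ‖y - y'‖) {y₀ z₀ : ℂ} (hy : y₀ ≠ 0)
    (hz : z₀ ≠ 0) {l : ℝ} (hl : 0 ≤ l) {θ₀ : Θ} (hθ₀ : θ₀ ∈ s) (P Q : ℂ →L[ℝ] ℂ) {ν : ℝ}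
    (hν : L * ‖y₀‖ * ‖P‖ < ν)
    (hmono : ∀ ε > 0, ∃ U ∈ 𝓝 (0 : ℂ × ℂ), ∀ᶠ θ in 𝓝[s] θ₀, ∀ x ∈ U, ∀ c,
      (x.1 + P c, x.2 + Q c) ∈ U → ∀ dR db dW dω : ℝ,
      dR = ‖z₀‖ * Real.exp (x.2.re + (Q c).re) - ‖z₀‖ * Real.exp x.2.re →
      db = min (l * ‖y₀‖ * Real.exp (x.1.re + (P c).re)) (‖z₀‖ * Real.exp (x.2.re + (Q c).re)) -
        min (l * ‖y₀‖ * Real.exp x.1.re) (‖z₀‖ * Real.exp x.2.re) →
      dW = W θ (z₀.arg + (x.2.im + (Q c).im)) - W θ (z₀.arg + x.2.im) →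
      dω = Ω θ (y₀.arg + (x.1.im + (P c).im)) (z₀.arg + (x.2.im + (Q c).im)) -
        Ω θ (y₀.arg + x.1.im) (z₀.arg + x.2.im) →
      (ν - ε) * ‖c‖ ^ 2 ≤
        τ θ₀ * (dR - db) * (fr (ei (W θ₀ z₀.arg)) c).re +
        τ θ₀ * (‖z₀‖ - min (l * ‖y₀‖) ‖z₀‖) * dW * (fr (ei (W θ₀ z₀.arg)) c).im +
        db * (fr (ei (Ω θ₀ y₀.arg z₀.arg)) c).re +
        min (l * ‖y₀‖) ‖z₀‖ * dω * (fr (ei (Ω θ₀ y₀.arg z₀.arg)) c).im) (X₀ : E) :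
    RegAt s (fun θ (p : (E × ℂ) × ℂ) => B p.1 + plk l (τ θ) (W θ) (Ω θ) p.1.2 p.2) θ₀
      ((X₀, y₀), z₀) := by
  refine reg_main h hL hB hy hz hl hθ₀ P Q hν (fun ε hε => ?_) X₀
  obtain ⟨U, hU, hev⟩ := hmono ε hε
  refine ⟨U, hU, ?_⟩
  filter_upwards [hev] with θ e1 x hx c hc
  have e2 := e1 x hx c hc _ _ _ _ rfl rfl rfl rfl
  rw [inner_Elin]
  simpa [vv] using e2

/-! ### Slopes -/

/-- Lower slope of the core phase near `g₀`. -/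
def SlW (s : Set Θ) (W : Θ → ℝ → ℝ) (θ₀ : Θ) (g₀ κ : ℝ) : Prop :=
  ∃ δ > 0, ∀ᶠ θ in 𝓝[s] θ₀, ∀ g g', |g - g₀| < δ → |g' - g₀| < δ →
    κ * (g' - g) ^ 2 ≤ (W θ g' - W θ g) * (g' - g)

/-- Lower slope of the phase in the first variable. -/
def Sl1 (s : Set Θ) (Ω : Θ → ℝ → ℝ → ℝ) (θ₀ : Θ) (α₀ g₀ κ : ℝ) : Prop :=
  ∃ δ > 0, ∀ᶠ θ in 𝓝[s] θ₀, ∀ α α' g, |α - α₀| < δ → |α' - α₀| < δ → |g - g₀| < δ →
    κ * (α' - α) ^ 2 ≤ (Ω θ α' g - Ω θ α g) * (α' - α)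

/-- Slopes of the phase in the second variable. -/
def Sl2 (s : Set Θ) (Ω : Θ → ℝ → ℝ → ℝ) (θ₀ : Θ) (α₀ g₀ κ κ' : ℝ) : Prop :=
  ∃ δ > 0, ∀ᶠ θ in 𝓝[s] θ₀, ∀ α g g', |α - α₀| < δ → |g - g₀| < δ → |g' - g₀| < δ →
    κ * (g' - g) ^ 2 ≤ (Ω θ α g' - Ω θ α g) * (g' - g) ∧ |Ω θ α g' - Ω θ α g| ≤ κ' * |g' - g|

/-- Algebra: a lower slope along a scaled variable. -/
theorem slope_mul {κ μ d w : ℝ} (hμ : 0 < μ) (h : κ * (μ * w) ^ 2 ≤ d * (μ * w)) :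
    κ * μ * w ^ 2 ≤ d * w := by
  have h1 : μ * (κ * μ * w ^ 2) ≤ μ * (d * w) := by nlinarith
  exact le_of_mul_le_mul_left h1 hμ

/-- Algebra: the radial part. -/
theorem radial_alg {r a ρ ε c1 : ℝ} (hr : 0 < r) (ha : a = 1 / r * c1) (hρ : |ρ| ≤ ε * |a|) :
    c1 ^ 2 - ε * c1 ^ 2 ≤ r * (ρ + a) * c1 := by
  have h1 : |r * ρ * c1| ≤ ε * c1 ^ 2 := by
    rw [abs_mul, abs_mul, abs_of_pos hr]
    have h2 : |a| = 1 / r * |c1| := by rw [ha, abs_mul, abs_of_pos (by positivity)]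
    rw [h2] at hρ
    calc r * |ρ| * |c1| ≤ r * (ε * (1 / r * |c1|)) * |c1| := by
          refine mul_le_mul_of_nonneg_right (mul_le_mul_of_nonneg_left hρ hr.le) (abs_nonneg _)
      _ = ε * (|c1| * |c1|) := by field_simp
      _ = ε * c1 ^ 2 := by rw [abs_mul_abs_self, sq]
  have h3 := (abs_le.mp h1).1
  have h4 : r * (ρ + a) * c1 = r * ρ * c1 + c1 ^ 2 := by rw [ha]; field_simp
  rw [h4]
  linarith

theorem dist_im {δ : ℝ} {x : ℂ × ℂ} (hx : x ∈ Metric.ball (0 : ℂ × ℂ) δ) (α₀ g₀ : ℝ) :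
    |α₀ + x.1.im - α₀| < δ ∧ |g₀ + x.2.im - g₀| < δ ∧ |x.1.re| < δ ∧ |x.2.re| < δ := by
  rw [mem_ball_zero_iff] at hx
  have h1 := (norm_fst_le x).trans_lt hx
  have h2 := (norm_snd_le x).trans_lt hx
  refine ⟨?_, ?_, (Complex.abs_re_le_norm _).trans_lt h1, (Complex.abs_re_le_norm _).trans_lt h2⟩
  · rw [add_sub_cancel_left]; exact (Complex.abs_im_le_norm _).trans_lt h1
  · rw [add_sub_cancel_left]; exact (Complex.abs_im_le_norm _).trans_lt h2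

/-- Algebra for the kink. -/
theorem kink_radial {r ε b c1 d e : ℝ} (hr : 0 < r) (hε0 : 0 < ε) (hε1 : ε ≤ 1)
    (hd : d = 1 / r * c1) (he : |e - 1 - d| ≤ ε * |d|) (hb : (1 - ε) * r ≤ b) (hb0 : 0 ≤ b) :
    (1 - 2 * ε) * c1 ^ 2 ≤ b * (e - 1) * c1 ∧ |e - 1| ≤ 2 * (1 / r * |c1|) := by
  have hdabs : |d| = 1 / r * |c1| := by rw [hd, abs_mul, abs_of_pos (by positivity)]
  have hd0 := abs_nonneg d
  constructor
  · have m1 : (1 - ε) * (1 / r * c1 ^ 2) ≤ (e - 1) * c1 := by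
      have e1 : (e - 1) * c1 = (e - 1 - d) * c1 + 1 / r * c1 ^ 2 := by rw [hd]; ring
      have e2 : |(e - 1 - d) * c1| ≤ ε * (1 / r * c1 ^ 2) := by
        rw [abs_mul]
        calc _ ≤ ε * (1 / r * |c1|) * |c1| := by
              rw [← hdabs]
              exact mul_le_mul_of_nonneg_right he (abs_nonneg _)
          _ = ε * (1 / r * (|c1| * |c1|)) := by ring
          _ = _ := by rw [abs_mul_abs_self, sq]
      have e3 := (abs_le.mp e2).1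
      rw [e1]; linarith
    have m0 : 0 ≤ (1 - ε) * (1 / r * c1 ^ 2) := mul_nonneg (by linarith) (by positivity)
    have m2 : (1 - 2 * ε) * c1 ^ 2 ≤ (1 - ε) * (1 - ε) * c1 ^ 2 :=
      mul_le_mul_of_nonneg_right (by nlinarith) (sq_nonneg _)
    have m3 : (1 - ε) * (1 - ε) * c1 ^ 2 = (1 - ε) * r * ((1 - ε) * (1 / r * c1 ^ 2)) := by
      field_simp
    have m4 := mul_le_mul_of_nonneg_right hb m0
    have m5 := mul_le_mul_of_nonneg_left m1 hb0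
    rw [mul_assoc]
    linarith
  · have e1 : e - 1 = (e - 1 - d) + d := by ring
    have e2 : ε * |d| ≤ 1 * |d| := mul_le_mul_of_nonneg_right hε1 hd0
    rw [← hdabs, e1]
    refine (abs_add_le _ _).trans ?_
    linarith

theorem kink_final {τ' dR db f0 W' c1 c2 r dω n ε ε' : ℝ} (hε'0 : 0 < ε') (hε'8 : ε' ≤ ε / 8)
    (hcc : c1 ^ 2 + c2 ^ 2 = n ^ 2) (hn : 0 ≤ n) (hτ0 : 0 ≤ τ') (hτ1 : τ' ≤ 1)
    (hf0 : |f0| ≤ n) (hc1 : |c1| ≤ n) (k2 : |dR - db| ≤ 2 * ε' * |c1|)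
    (k3 : (1 - 2 * ε') * c1 ^ 2 ≤ db * c1) (j6 : c2 ^ 2 ≤ r * (dω * c2)) :
    (1 - ε) * n ^ 2 ≤ τ' * (dR - db) * f0 + W' * 0 + db * c1 + r * dω * c2 := by
  have k4 : |τ' * (dR - db) * f0| ≤ 2 * ε' * n ^ 2 := by
    rw [abs_mul, abs_mul, abs_of_nonneg hτ0]
    calc τ' * |dR - db| * |f0| ≤ 1 * (2 * ε' * |c1|) * n := by
          refine mul_le_mul ?_ hf0 (abs_nonneg _) (by positivity)
          exact mul_le_mul hτ1 k2 (abs_nonneg _) zero_le_one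
      _ ≤ 1 * (2 * ε' * n) * n := by
          refine mul_le_mul_of_nonneg_right ?_ hn
          refine mul_le_mul_of_nonneg_left ?_ zero_le_one
          exact mul_le_mul_of_nonneg_left hc1 (by positivity)
      _ = _ := by ring
  have k5 := (abs_le.mp k4).1
  have k6 : ε' * c1 ^ 2 ≤ ε' * n ^ 2 :=
    mul_le_mul_of_nonneg_left (by linarith [sq_nonneg c2]) hε'0.le
  have k7 : ε' * n ^ 2 ≤ ε / 8 * n ^ 2 := mul_le_mul_of_nonneg_right hε'8 (sq_nonneg _)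
  have k8 : 0 ≤ ε / 8 * n ^ 2 := (mul_nonneg hε'0.le (sq_nonneg _)).trans k7
  linarith

/-- Algebra inside the core, direction of `z`. -/
theorem zin_alg {b₀ κ κ' μ T M X Y D dW dω c1 c2 ε R1 : ℝ} (hb0 : 0 ≤ b₀) (hκ' : 0 ≤ κ')
    (hT : T = D * κ - b₀ * κ' * max (-X) 0) (hT0 : 0 < T) (hM : M = b₀ * κ' + 1)
    (hμ : μ = T / M ^ 2) (hD : 0 ≤ D) (hY1 : |Y| ≤ 1) (hε : 0 < ε)
    (j7 : c1 ^ 2 - ε * c1 ^ 2 ≤ R1) (j3 : κ * μ * c2 ^ 2 ≤ dW * c2) (j1 : 0 ≤ dω * c2)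
    (j2 : |dω| ≤ κ' * (μ * |c2|)) :
    (min (1 / 2) (μ * T / 2) - ε) * (c1 ^ 2 + c2 ^ 2) ≤
      R1 + D * (dW * c2) + b₀ * (X * (dω * c2)) - b₀ * (Y * dω * c1) := by
  have hM0 : 0 < M := by rw [hM]; positivity
  have hμ0 : 0 < μ := by rw [hμ]; positivity
  have m1 := mul_le_mul_of_nonneg_left j3 hD
  have m2 : dω * c2 ≤ κ' * μ * c2 ^ 2 := by
    calc dω * c2 ≤ |dω * c2| := le_abs_self _
      _ = |dω| * |c2| := abs_mul _ _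
      _ ≤ κ' * (μ * |c2|) * |c2| := mul_le_mul_of_nonneg_right j2 (abs_nonneg _)
      _ = κ' * μ * (|c2| * |c2|) := by ring
      _ = _ := by rw [abs_mul_abs_self, sq]
  have m3 : -(max (-X) 0 * (κ' * μ * c2 ^ 2)) ≤ X * (dω * c2) := by
    have n1 : -max (-X) 0 ≤ X := by linarith [le_max_left (-X) 0]
    have n2 : 0 ≤ max (-X) 0 := le_max_right _ _
    have n3 := mul_le_mul_of_nonneg_right n1 j1
    have n4 := mul_le_mul_of_nonneg_left m2 n2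
    linarith
  have m4 : |Y * dω * c1| ≤ κ' * μ * (|c1| * |c2|) := by
    rw [abs_mul, abs_mul]
    calc |Y| * |dω| * |c1| ≤ 1 * (κ' * (μ * |c2|)) * |c1| := by
          refine mul_le_mul_of_nonneg_right ?_ (abs_nonneg _)
          exact mul_le_mul hY1 j2 (abs_nonneg _) zero_le_one
      _ = _ := by ring
  have m5 := (abs_le.mp m4).2
  have m6 : b₀ * (κ' * μ * (|c1| * |c2|)) ≤ c1 ^ 2 / 2 + μ * T / 2 * c2 ^ 2 := by
    have n1 : b₀ * (κ' * μ * (|c1| * |c2|)) ≤ M * μ * (|c1| * |c2|) := by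
      have : 0 ≤ μ * (|c1| * |c2|) := by positivity
      rw [hM]
      have e : (b₀ * κ' + 1) * μ * (|c1| * |c2|) =
        b₀ * (κ' * μ * (|c1| * |c2|)) + μ * (|c1| * |c2|) := by ring
      rw [e]; linarith
    have n2 : M * μ * (|c1| * |c2|) ≤ |c1| ^ 2 / 2 + (M * μ) ^ 2 * |c2| ^ 2 / 2 := by
      have := sq_nonneg (|c1| - M * μ * |c2|)
      have e : (|c1| - M * μ * |c2|) ^ 2 =
        |c1| ^ 2 - 2 * (M * μ * (|c1| * |c2|)) + (M * μ) ^ 2 * |c2| ^ 2 := by ring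
      rw [e] at this; linarith
    have n3 : (M * μ) ^ 2 = μ * T := by
      have : μ * M ^ 2 = T := by rw [hμ]; field_simp
      rw [← this]; ring
    rw [n3, sq_abs, sq_abs] at n2
    linarith
  have m7 := mul_le_mul_of_nonneg_left m3 hb0
  have m8 := mul_le_mul_of_nonneg_left m5 hb0
  have m9 : μ * T * c2 ^ 2 = D * (κ * μ * c2 ^ 2) -
      b₀ * (max (-X) 0 * (κ' * μ * c2 ^ 2)) := by rw [hT]; ring
  have q1 : min (1 / 2) (μ * T / 2) * c1 ^ 2 ≤ 1 / 2 * c1 ^ 2 :=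
    mul_le_mul_of_nonneg_right (min_le_left _ _) (sq_nonneg _)
  have q2 : min (1 / 2) (μ * T / 2) * c2 ^ 2 ≤ μ * T / 2 * c2 ^ 2 :=
    mul_le_mul_of_nonneg_right (min_le_right _ _) (sq_nonneg _)
  have q3 : 0 ≤ ε * c2 ^ 2 := by positivity
  generalize min (1 / 2) (μ * T / 2) = m at *
  linarith

/-- Algebra inside the core, direction of `y`. -/
theorem yin_alg {b₀ g τ' Y db dω c1 c2 ε ε' : ℝ} (hτ0 : 0 ≤ τ') (hτ1 : τ' ≤ 1)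
    (hY1 : |Y| ≤ 1) (hε'0 : 0 < ε') (hε : ε = 4 * ε')
    (j7 : c1 ^ 2 - ε' * c1 ^ 2 ≤ g * db * c1) (j9 : |db| ≤ 2 * (1 + ε') * |c1|)
    (j6 : 3 * c2 ^ 2 ≤ b₀ * (dω * c2)) :
    (1 / 2 - ε) * (c1 ^ 2 + c2 ^ 2) ≤ g * db * c1 - τ' * db * (Y * c2) + b₀ * (dω * c2) := by
  have k1 : |τ' * db * (Y * c2)| ≤ 2 * (1 + ε') * (|c1| * |c2|) := by
    rw [abs_mul, abs_mul, abs_mul, abs_of_nonneg hτ0]
    calc τ' * |db| * (|Y| * |c2|) ≤ 1 * (2 * (1 + ε') * |c1|) * (1 * |c2|) := by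
          refine mul_le_mul ?_ ?_ (by positivity) (by positivity)
          · exact mul_le_mul hτ1 j9 (abs_nonneg _) zero_le_one
          · exact mul_le_mul_of_nonneg_right hY1 (abs_nonneg _)
      _ = _ := by ring
  have k2 := (abs_le.mp k1).2
  have k3 : 2 * (|c1| * |c2|) ≤ c1 ^ 2 / 2 + 2 * c2 ^ 2 := by
    have := sq_nonneg (|c1| - 2 * |c2|)
    have e : (|c1| - 2 * |c2|) ^ 2 = |c1| ^ 2 - 4 * (|c1| * |c2|) + 4 * |c2| ^ 2 := by ring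
    rw [e, sq_abs, sq_abs] at this; linarith
  have k4 : 2 * (|c1| * |c2|) ≤ c1 ^ 2 + c2 ^ 2 := by
    have := sq_nonneg (|c1| - |c2|)
    have e : (|c1| - |c2|) ^ 2 = |c1| ^ 2 - 2 * (|c1| * |c2|) + |c2| ^ 2 := by ring
    rw [e, sq_abs, sq_abs] at this; linarith
  have k5 := mul_le_mul_of_nonneg_left k4 hε'0.le
  have k7 : 0 ≤ ε' * c1 ^ 2 := by positivity
  have k8 : 0 ≤ ε' * c2 ^ 2 := by positivity
  have k9 := sq_nonneg c2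
  rw [hε]
  linarith

theorem db_bound {b₀ g d ρ ε c1 db : ℝ} (hb0 : 0 < b₀) (hg : 1 / 2 ≤ g) (hε : 0 < ε)
    (hd : d = 1 / (b₀ * g) * c1) (hρ : |ρ| ≤ ε * |d|) (hdb : db = b₀ * (ρ + d)) :
    |db| ≤ 2 * (1 + ε) * |c1| := by
  have hgp : 0 < g := by linarith
  have e2 : |d| = 1 / (b₀ * g) * |c1| := by rw [hd, abs_mul, abs_of_pos (by positivity)]
  have e3 : |ρ + d| ≤ (1 + ε) * (1 / (b₀ * g) * |c1|) := by
    refine (abs_add_le _ _).trans ?_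
    rw [e2] at hρ ⊢
    linarith
  rw [hdb, abs_mul, abs_of_pos hb0]
  calc _ ≤ b₀ * ((1 + ε) * (1 / (b₀ * g) * |c1|)) := mul_le_mul_of_nonneg_left e3 hb0.le
    _ = 1 / g * ((1 + ε) * |c1|) := by field_simp
    _ ≤ 2 * ((1 + ε) * |c1|) := by
        refine mul_le_mul_of_nonneg_right ?_ (by positivity)
        rw [div_le_iff₀ hgp]; linarith
    _ = _ := by ring

/-- **Outside the core**: `|z₀| < l |y₀|`, direction of `z`. -/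
theorem case_out {s : Set Θ} {K : ℝ} {τ : Θ → ℝ} {W : Θ → ℝ → ℝ} {Ω : Θ → ℝ → ℝ → ℝ}
    (h : PhFam s K τ W Ω) {B : E × ℂ → ℂ} {L : ℝ} (hL : 0 ≤ L)
    (hB : ∀ X y y', ‖B (X, y) - B (X, y')‖ ≤ L * ‖y - y'‖) {y₀ z₀ : ℂ} (hy : y₀ ≠ 0)
    (hz : z₀ ≠ 0) {l : ℝ} (hl : 0 ≤ l) {θ₀ : Θ} (hθ₀ : θ₀ ∈ s) {κ κ' : ℝ} (hκ : 0 < κ)
    (hS : Sl2 s Ω θ₀ y₀.arg z₀.arg κ κ') (hout : ‖z₀‖ < l * ‖y₀‖) (X₀ : E) :
    RegAt s (fun θ (p : (E × ℂ) × ℂ) => B p.1 + plk l (τ θ) (W θ) (Ω θ) p.1.2 p.2) θ₀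
      ((X₀, y₀), z₀) := by
  have hr : 0 < ‖z₀‖ := norm_pos_iff.mpr hz
  set u₀ : ℂ := ei (Ω θ₀ y₀.arg z₀.arg) with hu₀
  have hun : ‖u₀‖ = 1 := norm_ei _
  refine reg_crit h hL hB hy hz hl hθ₀ 0 (dirL u₀ (1 / ‖z₀‖) (1 / (κ * ‖z₀‖))) (ν := 1)
    (by simp) (fun ε hε => ?_) X₀
  obtain ⟨δ₁, hδ₁, hS1⟩ := hS
  obtain ⟨δ₂, hδ₂, hE⟩ := exp_lin (ε := ε) hε
  -- the modulus is `|z|` near
  obtain ⟨U₁, hU₁, hU₁'⟩ : ∃ U ∈ 𝓝 (0 : ℂ × ℂ), ∀ x ∈ U,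
      ‖z₀‖ * Real.exp x.2.re < l * ‖y₀‖ * Real.exp x.1.re := by
    have h1 : ContinuousAt (fun x : ℂ × ℂ => ‖z₀‖ * Real.exp x.2.re) 0 := by fun_prop
    have h2 : ContinuousAt (fun x : ℂ × ℂ => l * ‖y₀‖ * Real.exp x.1.re) 0 := by fun_prop
    have h3 := h1.eventually_lt h2 (by simpa using hout)
    exact ⟨_, h3, fun x hx => hx⟩
  refine ⟨U₁ ∩ Metric.ball 0 (min δ₁ δ₂),
    inter_mem hU₁ (Metric.ball_mem_nhds _ (lt_min hδ₁ hδ₂)), ?_⟩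
  filter_upwards [hS1] with θ e1 x hx c hc dR db dW dω hdR hdb _ hdω
  obtain ⟨a1, a2, a3, a4⟩ := dist_im hx.2 y₀.arg z₀.arg
  obtain ⟨b1, b2, b3, b4⟩ := dist_im hc.2 y₀.arg z₀.arg
  have d1 := hU₁' x hx.1
  have d2 := hU₁' _ hc.1
  simp only [dirL_apply, zero_apply, add_zero, Complex.add_re,
    Complex.add_im, Complex.zero_re, Complex.zero_im] at b1 b2 b3 b4 d2 hdR hdb hdω
  rw [min_eq_right d1.le, min_eq_right d2.le, ← hdR] at hdb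
  subst hdb
  rw [min_eq_right hout.le, sub_self, sub_self]
  have hcc : (fr u₀ c).re ^ 2 + (fr u₀ c).im ^ 2 = ‖c‖ ^ 2 := sq_fr hun c
  generalize (fr u₀ c).re = c1 at *
  generalize (fr u₀ c).im = c2 at *
  have i1 := (e1 (y₀.arg + x.1.im) (z₀.arg + x.2.im) (z₀.arg + (x.2.im + 1 / (κ * ‖z₀‖) * c2))
    (a1.trans_le (min_le_left _ _)) (a2.trans_le (min_le_left _ _))
    (b2.trans_le (min_le_left _ _))).1
  have i2 := hE x.2.re (x.2.re + 1 / ‖z₀‖ * c1) (a4.trans_le (min_le_right _ _))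
    (b4.trans_le (min_le_right _ _))
  rw [← hdω, add_sub_add_left_eq_sub, add_sub_cancel_left] at i1
  rw [add_sub_cancel_left] at i2
  have j5 := slope_mul (by positivity) i1
  have j6 : c2 ^ 2 ≤ ‖z₀‖ * (dω * c2) := by
    have e : ‖z₀‖ * (κ * (1 / (κ * ‖z₀‖)) * c2 ^ 2) = c2 ^ 2 := by field_simp
    rw [← e]
    exact mul_le_mul_of_nonneg_left j5 hr.le
  have j7 := radial_alg hr rfl i2
  have j8 : ‖z₀‖ * (Real.exp (x.2.re + 1 / ‖z₀‖ * c1) - Real.exp x.2.re - 1 / ‖z₀‖ * c1 +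
      1 / ‖z₀‖ * c1) * c1 = db * c1 := by rw [hdR]; ring
  rw [j8] at j7
  have j9 : ε * c1 ^ 2 ≤ ε * ‖c‖ ^ 2 := by
    refine mul_le_mul_of_nonneg_left ?_ hε.le
    rw [← hcc]; nlinarith [sq_nonneg c2]
  nlinarith

/-- **The kink** `|z₀| = l |y₀|`: Euler direction and rotation of `z`. -/
theorem case_kink {s : Set Θ} {K : ℝ} {τ : Θ → ℝ} {W : Θ → ℝ → ℝ} {Ω : Θ → ℝ → ℝ → ℝ}
    (h : PhFam s K τ W Ω) {B : E × ℂ → ℂ} {L : ℝ} (hL : 0 ≤ L)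
    (hB : ∀ X y y', ‖B (X, y) - B (X, y')‖ ≤ L * ‖y - y'‖) {y₀ z₀ : ℂ} (hy : y₀ ≠ 0)
    (hz : z₀ ≠ 0) {l : ℝ} (hl : 0 ≤ l) (hLl : L < l) {θ₀ : Θ} (hθ₀ : θ₀ ∈ s) {κ κ' : ℝ}
    (hκ : 0 < κ) (hS : Sl2 s Ω θ₀ y₀.arg z₀.arg κ κ') (hkink : l * ‖y₀‖ = ‖z₀‖) (X₀ : E) :
    RegAt s (fun θ (p : (E × ℂ) × ℂ) => B p.1 + plk l (τ θ) (W θ) (Ω θ) p.1.2 p.2) θ₀
      ((X₀, y₀), z₀) := by
  have hr : 0 < ‖z₀‖ := norm_pos_iff.mpr hz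
  have hτ := h.τm θ₀ hθ₀
  set u₀ : ℂ := ei (Ω θ₀ y₀.arg z₀.arg) with hu₀
  have hun : ‖u₀‖ = 1 := norm_ei _
  refine reg_crit h hL hB hy hz hl hθ₀ (dirL u₀ (1 / ‖z₀‖) 0)
    (dirL u₀ (1 / ‖z₀‖) (1 / (κ * ‖z₀‖))) (ν := 1) ?_ (fun ε hε => ?_) X₀
  · have h1 : ‖dirL u₀ (1 / ‖z₀‖) 0‖ ≤ 1 / ‖z₀‖ := by
      have := norm_dirL_le hun (1 / ‖z₀‖) 0
      rwa [abs_zero, add_zero, abs_of_pos (by positivity)] at this
    have hy0 : 0 < ‖y₀‖ := norm_pos_iff.mpr hy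
    calc L * ‖y₀‖ * ‖dirL u₀ (1 / ‖z₀‖) 0‖ ≤ L * ‖y₀‖ * (1 / ‖z₀‖) :=
          mul_le_mul_of_nonneg_left h1 (by positivity)
      _ = L * ‖y₀‖ / ‖z₀‖ := by ring
      _ < 1 := by
          rw [div_lt_one hr, ← hkink]
          exact mul_lt_mul_of_pos_right hLl hy0
  obtain ⟨δ₁, hδ₁, hS1⟩ := hS
  obtain ⟨ε', hε'0, hε'1, hε'8⟩ : ∃ ε' : ℝ, 0 < ε' ∧ ε' ≤ 1 ∧ ε' ≤ ε / 8 :=
    ⟨min (ε / 8) 1, lt_min (by positivity) one_pos, min_le_right _ _, min_le_left _ _⟩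
  obtain ⟨δ₂, hδ₂, hE⟩ := exp_lin (ε := ε') hε'0
  obtain ⟨U₁, hU₁, hU₁'⟩ : ∃ U ∈ 𝓝 (0 : ℂ × ℂ), ∀ x ∈ U,
      (1 - ε') * ‖z₀‖ < min (‖z₀‖ * Real.exp x.1.re) (‖z₀‖ * Real.exp x.2.re) ∧
      ‖z₀‖ * Real.exp x.2.re - min (‖z₀‖ * Real.exp x.1.re) (‖z₀‖ * Real.exp x.2.re) <
        ε' * ‖z₀‖ := by
    have h1 : ContinuousAt (fun x : ℂ × ℂ =>
        min (‖z₀‖ * Real.exp x.1.re) (‖z₀‖ * Real.exp x.2.re)) 0 := by fun_prop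
    have h2 : ContinuousAt (fun x : ℂ × ℂ => ‖z₀‖ * Real.exp x.2.re -
        min (‖z₀‖ * Real.exp x.1.re) (‖z₀‖ * Real.exp x.2.re)) 0 := by fun_prop
    have h3 := (continuousAt_const (y := (1 - ε') * ‖z₀‖)).eventually_lt h1 (by
      have : 0 < ε' * ‖z₀‖ := by positivity
      simp only [Prod.fst_zero, Prod.snd_zero, Complex.zero_re, Real.exp_zero, mul_one, min_self]
      linarith)
    have h4 := h2.eventually_lt (continuousAt_const (y := ε' * ‖z₀‖)) (by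
      simp only [Prod.fst_zero, Prod.snd_zero, Complex.zero_re, Real.exp_zero, mul_one, min_self,
        sub_self]
      positivity)
    exact ⟨_, h3.and h4, fun x hx => hx⟩
  refine ⟨U₁ ∩ Metric.ball 0 (min δ₁ (δ₂ / 2)),
    inter_mem hU₁ (Metric.ball_mem_nhds _ (lt_min hδ₁ (half_pos hδ₂))), ?_⟩
  filter_upwards [hS1] with θ e1 x hx c hc dR db dW dω hdR hdb _ hdω
  obtain ⟨a1, a2, a3, a4⟩ := dist_im hx.2 y₀.arg z₀.arg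
  obtain ⟨b1, b2, b3, b4⟩ := dist_im hc.2 y₀.arg z₀.arg
  have d1 := hU₁' x hx.1
  simp only [dirL_apply, add_zero, Complex.add_re, zero_mul,
    Complex.add_im] at b2 b4 hdR hdb hdω
  rw [hkink] at hdb ⊢
  rw [min_self, sub_self, mul_zero, zero_mul, zero_mul, ← mul_zero (0 : ℝ)]
  have hcc : (fr u₀ c).re ^ 2 + (fr u₀ c).im ^ 2 = ‖c‖ ^ 2 := sq_fr hun c
  have hf0 := abs_fr_re (norm_ei (W θ₀ z₀.arg)) c
  have hf1 := abs_fr_re hun c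
  generalize (fr u₀ c).re = c1 at *
  generalize (fr u₀ c).im = c2 at *
  generalize (fr (ei (W θ₀ z₀.arg)) c).re = f0 at *
  have i1 := (e1 (y₀.arg + x.1.im) (z₀.arg + x.2.im) (z₀.arg + (x.2.im + 1 / (κ * ‖z₀‖) * c2))
    (a1.trans_le (min_le_left _ _)) (a2.trans_le (min_le_left _ _))
    (b2.trans_le (min_le_left _ _))).1
  rw [← hdω, add_sub_add_left_eq_sub, add_sub_cancel_left] at i1
  have j5 := slope_mul (by positivity) i1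
  have j6 : c2 ^ 2 ≤ ‖z₀‖ * (dω * c2) := by
    have e : ‖z₀‖ * (κ * (1 / (κ * ‖z₀‖)) * c2 ^ 2) = c2 ^ 2 := by field_simp
    rw [← e]
    exact mul_le_mul_of_nonneg_left j5 hr.le
  -- the radial part
  obtain ⟨d, hd⟩ : ∃ d : ℝ, d = 1 / ‖z₀‖ * c1 := ⟨_, rfl⟩
  rw [← hd] at hdb hdR b4
  have hds : |d| < δ₂ := by
    have h1 : |d| ≤ |x.2.re + d| + |x.2.re| := by
      have := abs_sub (x.2.re + d) x.2.re
      rwa [add_sub_cancel_left] at this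
    have h2 := b4.trans_le (min_le_right _ _)
    have h3 := a4.trans_le (min_le_right _ _)
    linarith
  have i2 := hE 0 d (by simpa using hδ₂) hds
  rw [Real.exp_zero, sub_zero] at i2
  obtain ⟨b, hb⟩ : ∃ b : ℝ, b = min (‖z₀‖ * Real.exp x.1.re) (‖z₀‖ * Real.exp x.2.re) :=
    ⟨_, rfl⟩
  have hdb' : db = b * (Real.exp d - 1) := by
    rw [hdb, Real.exp_add, Real.exp_add, ← mul_assoc, ← mul_assoc,
      ← min_mul_of_nonneg _ _ (Real.exp_pos d).le, ← hb]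
    ring
  have hdR' : dR = ‖z₀‖ * Real.exp x.2.re * (Real.exp d - 1) := by
    rw [hdR, Real.exp_add]; ring
  rw [← hb] at d1
  have hb0 : 0 ≤ b := by rw [hb]; exact le_min (by positivity) (by positivity)
  obtain ⟨k3, k1⟩ := kink_radial hr hε'0 hε'1 hd i2 d1.1.le hb0
  rw [← hdb'] at k3
  have k2 : |dR - db| ≤ 2 * ε' * |c1| := by
    have e : dR - db = (‖z₀‖ * Real.exp x.2.re - b) * (Real.exp d - 1) := by
      rw [hdR', hdb']; ring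
    have hnn : 0 ≤ ‖z₀‖ * Real.exp x.2.re - b := by
      rw [sub_nonneg, hb]; exact min_le_right _ _
    rw [e, abs_mul, abs_of_nonneg hnn]
    calc _ ≤ ε' * ‖z₀‖ * (2 * (1 / ‖z₀‖ * |c1|)) :=
          mul_le_mul d1.2.le k1 (abs_nonneg _) (by positivity)
      _ = 2 * ε' * |c1| := by field_simp
  exact kink_final hε'0 hε'8 hcc (norm_nonneg c) hτ.1 hτ.2 hf0 hf1 k2 k3 j6

/-- **Inside the core, direction of `z`**. -/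
theorem case_zin {s : Set Θ} {K : ℝ} {τ : Θ → ℝ} {W : Θ → ℝ → ℝ} {Ω : Θ → ℝ → ℝ → ℝ}
    (h : PhFam s K τ W Ω) {B : E × ℂ → ℂ} {L : ℝ} (hL : 0 ≤ L)
    (hB : ∀ X y y', ‖B (X, y) - B (X, y')‖ ≤ L * ‖y - y'‖) {y₀ z₀ : ℂ} (hy : y₀ ≠ 0)
    (hz : z₀ ≠ 0) {l : ℝ} (hl : 0 ≤ l) {θ₀ : Θ} (hθ₀ : θ₀ ∈ s) (hτ0 : 0 < τ θ₀) {κ κ' : ℝ}
    (hκ' : 0 ≤ κ') (hSW : SlW s W θ₀ z₀.arg κ) (hS : Sl2 s Ω θ₀ y₀.arg z₀.arg 0 κ')
    (hin : l * ‖y₀‖ < ‖z₀‖)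
    (hT : l * ‖y₀‖ * κ' * max (-(fr (ei (W θ₀ z₀.arg)) (ei (Ω θ₀ y₀.arg z₀.arg))).re) 0 <
      τ θ₀ * (‖z₀‖ - l * ‖y₀‖) * κ) (X₀ : E) :
    RegAt s (fun θ (p : (E × ℂ) × ℂ) => B p.1 + plk l (τ θ) (W θ) (Ω θ) p.1.2 p.2) θ₀
      ((X₀, y₀), z₀) := by
  have hr : 0 < ‖z₀‖ := norm_pos_iff.mpr hz
  have hτ := h.τm θ₀ hθ₀
  have hb0 : 0 ≤ l * ‖y₀‖ := by positivity
  obtain ⟨X, hX⟩ : ∃ X, X = (fr (ei (W θ₀ z₀.arg)) (ei (Ω θ₀ y₀.arg z₀.arg))).re := ⟨_, rfl⟩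
  obtain ⟨Y, hY⟩ : ∃ Y, Y = (fr (ei (W θ₀ z₀.arg)) (ei (Ω θ₀ y₀.arg z₀.arg))).im := ⟨_, rfl⟩
  have hY1 : |Y| ≤ 1 := by
    rw [hY]
    exact (abs_fr_im (norm_ei _) _).trans (norm_ei _).le
  have hch := fr_change_im (norm_ei (W θ₀ z₀.arg)) (ei (Ω θ₀ y₀.arg z₀.arg))
  rw [← hX, ← hY] at hch
  rw [← hX] at hT
  obtain ⟨T, hTdef⟩ : ∃ T, T = τ θ₀ * (‖z₀‖ - l * ‖y₀‖) * κ - l * ‖y₀‖ * κ' * max (-X) 0 :=
    ⟨_, rfl⟩
  have hT0 : 0 < T := by rw [hTdef]; linarith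
  obtain ⟨M, hM⟩ : ∃ M, M = l * ‖y₀‖ * κ' + 1 := ⟨_, rfl⟩
  have hM0 : 0 < M := by rw [hM]; positivity
  obtain ⟨μ, hμ⟩ : ∃ μ, μ = T / M ^ 2 := ⟨_, rfl⟩
  have hμ0 : 0 < μ := by rw [hμ]; positivity
  refine reg_crit h hL hB hy hz hl hθ₀ 0 (dirL (ei (W θ₀ z₀.arg)) (1 / (τ θ₀ * ‖z₀‖)) μ)
    (ν := min (1 / 2) (μ * T / 2)) ?_ (fun ε hε => ?_) X₀
  · simp only [norm_zero, mul_zero]
    exact lt_min (by norm_num) (by positivity)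
  obtain ⟨δ₁, hδ₁, hS1⟩ := hS
  obtain ⟨δ₃, hδ₃, hS3⟩ := hSW
  obtain ⟨δ₂, hδ₂, hE⟩ := exp_lin (ε := ε) hε
  obtain ⟨U₁, hU₁, hU₁'⟩ : ∃ U ∈ 𝓝 (0 : ℂ × ℂ), ∀ x ∈ U,
      l * ‖y₀‖ * Real.exp x.1.re < ‖z₀‖ * Real.exp x.2.re := by
    have h1 : ContinuousAt (fun x : ℂ × ℂ => ‖z₀‖ * Real.exp x.2.re) 0 := by fun_prop
    have h2 : ContinuousAt (fun x : ℂ × ℂ => l * ‖y₀‖ * Real.exp x.1.re) 0 := by fun_prop
    have h3 := h2.eventually_lt h1 (by simpa using hin)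
    exact ⟨_, h3, fun x hx => hx⟩
  refine ⟨U₁ ∩ Metric.ball 0 (min δ₁ (min δ₂ δ₃)),
    inter_mem hU₁ (Metric.ball_mem_nhds _ (lt_min hδ₁ (lt_min hδ₂ hδ₃))), ?_⟩
  filter_upwards [hS1, hS3] with θ e1 e3 x hx c hc dR db dW dω hdR hdb hdW hdω
  obtain ⟨a1, a2, a3, a4⟩ := dist_im hx.2 y₀.arg z₀.arg
  obtain ⟨b1, b2, b3, b4⟩ := dist_im hc.2 y₀.arg z₀.arg
  have d1 := hU₁' x hx.1
  have d2 := hU₁' _ hc.1
  simp only [dirL_apply, zero_apply, add_zero, Complex.add_re,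
    Complex.add_im, Complex.zero_re, Complex.zero_im] at b2 b4 d2 hdR hdb hdω hdW
  rw [min_eq_left d1.le, min_eq_left d2.le, sub_self] at hdb
  rw [min_eq_left hin.le, hch c, hdb]
  have hcc := sq_fr (norm_ei (W θ₀ z₀.arg)) c
  generalize (fr (ei (W θ₀ z₀.arg)) c).re = c1 at *
  generalize (fr (ei (W θ₀ z₀.arg)) c).im = c2 at *
  have i1 := e1 (y₀.arg + x.1.im) (z₀.arg + x.2.im) (z₀.arg + (x.2.im + μ * c2))
    (a1.trans_le (min_le_left _ _)) (a2.trans_le (min_le_left _ _))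
    (b2.trans_le (min_le_left _ _))
  have i3 := e3 (z₀.arg + x.2.im) (z₀.arg + (x.2.im + μ * c2))
    (a2.trans_le ((min_le_right _ _).trans (min_le_right _ _)))
    (b2.trans_le ((min_le_right _ _).trans (min_le_right _ _)))
  have i2 := hE x.2.re (x.2.re + 1 / (τ θ₀ * ‖z₀‖) * c1)
    (a4.trans_le ((min_le_right _ _).trans (min_le_left _ _)))
    (b4.trans_le ((min_le_right _ _).trans (min_le_left _ _)))
  rw [← hdω, add_sub_add_left_eq_sub, add_sub_cancel_left] at i1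
  rw [← hdW, add_sub_add_left_eq_sub, add_sub_cancel_left] at i3
  rw [add_sub_cancel_left] at i2
  have j3 := slope_mul hμ0 i3
  have j1 := slope_mul hμ0 i1.1
  rw [zero_mul, zero_mul] at j1
  have j2 : |dω| ≤ κ' * (μ * |c2|) := by
    have := i1.2; rwa [abs_mul, abs_of_pos hμ0] at this
  have hrr : 0 < τ θ₀ * ‖z₀‖ := by positivity
  have j7 := radial_alg hrr rfl i2
  have j8 : τ θ₀ * ‖z₀‖ * (Real.exp (x.2.re + 1 / (τ θ₀ * ‖z₀‖) * c1) - Real.exp x.2.re -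
      1 / (τ θ₀ * ‖z₀‖) * c1 + 1 / (τ θ₀ * ‖z₀‖) * c1) * c1 = τ θ₀ * dR * c1 := by
    rw [hdR]; ring
  rw [j8] at j7
  have hD : 0 ≤ τ θ₀ * (‖z₀‖ - l * ‖y₀‖) := mul_nonneg hτ.1 (by linarith)
  have hfin := zin_alg hb0 hκ' hTdef hT0 hM hμ hD hY1 hε j7 j3 j1 j2
  rw [hcc] at hfin
  refine hfin.trans (le_of_eq ?_)
  ring

/-- **Inside the core, direction of `y`**. -/
theorem case_yin {s : Set Θ} {K : ℝ} {τ : Θ → ℝ} {W : Θ → ℝ → ℝ} {Ω : Θ → ℝ → ℝ → ℝ}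
    (h : PhFam s K τ W Ω) {B : E × ℂ → ℂ} {L : ℝ} (hL : 0 ≤ L)
    (hB : ∀ X y y', ‖B (X, y) - B (X, y')‖ ≤ L * ‖y - y'‖) {y₀ z₀ : ℂ} (hy : y₀ ≠ 0)
    (hz : z₀ ≠ 0) {l : ℝ} (hl : 0 < l) {θ₀ : Θ} (hθ₀ : θ₀ ∈ s) {κ : ℝ} (hκ : 0 < κ)
    (hLl : L * (2 + 3 / κ) < l / 2) (hS : Sl1 s Ω θ₀ y₀.arg z₀.arg κ) (hin : l * ‖y₀‖ < ‖z₀‖)
    (hg : τ θ₀ * (fr (ei (Ω θ₀ y₀.arg z₀.arg)) (ei (W θ₀ z₀.arg))).re ≤ 1 / 2) (X₀ : E) :
    RegAt s (fun θ (p : (E × ℂ) × ℂ) => B p.1 + plk l (τ θ) (W θ) (Ω θ) p.1.2 p.2) θ₀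
      ((X₀, y₀), z₀) := by
  have hy0 : 0 < ‖y₀‖ := norm_pos_iff.mpr hy
  have hτ := h.τm θ₀ hθ₀
  obtain ⟨X, hX⟩ : ∃ X, X = (fr (ei (Ω θ₀ y₀.arg z₀.arg)) (ei (W θ₀ z₀.arg))).re := ⟨_, rfl⟩
  obtain ⟨Y, hY⟩ : ∃ Y, Y = (fr (ei (Ω θ₀ y₀.arg z₀.arg)) (ei (W θ₀ z₀.arg))).im := ⟨_, rfl⟩
  have hun := norm_ei (Ω θ₀ y₀.arg z₀.arg)
  have hY1 : |Y| ≤ 1 := by
    rw [hY]
    exact (abs_fr_im (norm_ei _) _).trans (norm_ei _).le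
  have hch := fr_change_re hun (ei (W θ₀ z₀.arg))
  rw [← hX, ← hY] at hch
  rw [← hX] at hg
  obtain ⟨b₀, hb₀⟩ : ∃ b₀, b₀ = l * ‖y₀‖ := ⟨_, rfl⟩
  have hb0 : 0 < b₀ := by rw [hb₀]; positivity
  obtain ⟨g, hgdef⟩ : ∃ g, g = 1 - τ θ₀ * X := ⟨_, rfl⟩
  have hg0 : 1 / 2 ≤ g := by rw [hgdef]; linarith
  have hgp : 0 < g := by linarith
  refine reg_crit h hL hB hy hz hl.le hθ₀ (dirL (ei (Ω θ₀ y₀.arg z₀.arg)) (1 / (b₀ * g))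
    (3 / (κ * b₀))) 0 (ν := 1 / 2) ?_ (fun ε hε => ?_) X₀
  · have h1 := norm_dirL_le hun (1 / (b₀ * g)) (3 / (κ * b₀))
    rw [abs_of_pos (by positivity), abs_of_pos (by positivity)] at h1
    have h2 : 1 / (b₀ * g) ≤ 2 / b₀ := by
      rw [div_le_div_iff₀ (by positivity) hb0]
      nlinarith
    have h3 : ‖dirL (ei (Ω θ₀ y₀.arg z₀.arg)) (1 / (b₀ * g)) (3 / (κ * b₀))‖ ≤
        (2 + 3 / κ) / b₀ := by
      refine h1.trans ?_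
      have : (2 + 3 / κ) / b₀ = 2 / b₀ + 3 / (κ * b₀) := by field_simp
      rw [this]; linarith
    calc L * ‖y₀‖ * ‖dirL (ei (Ω θ₀ y₀.arg z₀.arg)) (1 / (b₀ * g)) (3 / (κ * b₀))‖
        ≤ L * ‖y₀‖ * ((2 + 3 / κ) / b₀) := mul_le_mul_of_nonneg_left h3 (by positivity)
      _ = L * (2 + 3 / κ) / l := by rw [hb₀]; field_simp
      _ < 1 / 2 := by rw [div_lt_iff₀ hl]; linarith
  obtain ⟨δ₁, hδ₁, hS1⟩ := hS
  obtain ⟨ε', hε'⟩ : ∃ ε' : ℝ, ε = 4 * ε' := ⟨ε / 4, by ring⟩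
  have hε'0 : 0 < ε' := by linarith
  obtain ⟨δ₂, hδ₂, hE⟩ := exp_lin (ε := ε') hε'0
  obtain ⟨U₁, hU₁, hU₁'⟩ : ∃ U ∈ 𝓝 (0 : ℂ × ℂ), ∀ x ∈ U,
      l * ‖y₀‖ * Real.exp x.1.re < ‖z₀‖ * Real.exp x.2.re := by
    have h1 : ContinuousAt (fun x : ℂ × ℂ => ‖z₀‖ * Real.exp x.2.re) 0 := by fun_prop
    have h2 : ContinuousAt (fun x : ℂ × ℂ => l * ‖y₀‖ * Real.exp x.1.re) 0 := by fun_prop
    have h3 := h2.eventually_lt h1 (by simpa using hin)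
    exact ⟨_, h3, fun x hx => hx⟩
  refine ⟨U₁ ∩ Metric.ball 0 (min δ₁ δ₂),
    inter_mem hU₁ (Metric.ball_mem_nhds _ (lt_min hδ₁ hδ₂)), ?_⟩
  filter_upwards [hS1] with θ e1 x hx c hc dR db dW dω hdR hdb hdW hdω
  obtain ⟨a1, a2, a3, a4⟩ := dist_im hx.2 y₀.arg z₀.arg
  obtain ⟨b1, b2, b3, b4⟩ := dist_im hc.2 y₀.arg z₀.arg
  have d1 := hU₁' x hx.1
  have d2 := hU₁' _ hc.1
  simp only [dirL_apply, zero_apply, add_zero, Complex.add_re,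
    Complex.add_im, Complex.zero_re, Complex.zero_im, sub_self] at b1 b3 d2 hdR hdb hdω hdW
  rw [min_eq_left d1.le, min_eq_left d2.le] at hdb
  rw [min_eq_left hin.le, hch c, hdR, hdW]
  have hcc := sq_fr hun c
  generalize (fr (ei (Ω θ₀ y₀.arg z₀.arg)) c).re = c1 at *
  generalize (fr (ei (Ω θ₀ y₀.arg z₀.arg)) c).im = c2 at *
  generalize (fr (ei (W θ₀ z₀.arg)) c).im = f2 at *
  have i1 := e1 (y₀.arg + x.1.im) (y₀.arg + (x.1.im + 3 / (κ * b₀) * c2)) (z₀.arg + x.2.im)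
    (a1.trans_le (min_le_left _ _)) (b1.trans_le (min_le_left _ _))
    (a2.trans_le (min_le_left _ _))
  have i2 := hE x.1.re (x.1.re + 1 / (b₀ * g) * c1)
    (a3.trans_le (min_le_right _ _)) (b3.trans_le (min_le_right _ _))
  rw [← hdω, add_sub_add_left_eq_sub, add_sub_cancel_left] at i1
  rw [add_sub_cancel_left] at i2
  have j1 := slope_mul (by positivity) i1
  have j6 : 3 * c2 ^ 2 ≤ b₀ * (dω * c2) := by
    have e : b₀ * (κ * (3 / (κ * b₀)) * c2 ^ 2) = 3 * c2 ^ 2 := by field_simp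
    rw [← e]
    exact mul_le_mul_of_nonneg_left j1 hb0.le
  have j7 := radial_alg (by positivity : 0 < b₀ * g) rfl i2
  rw [← hb₀] at hdb
  have j8 : b₀ * g * (Real.exp (x.1.re + 1 / (b₀ * g) * c1) - Real.exp x.1.re -
      1 / (b₀ * g) * c1 + 1 / (b₀ * g) * c1) * c1 = g * db * c1 := by
    rw [hdb]; ring
  rw [j8] at j7
  have j9 : |db| ≤ 2 * (1 + ε') * |c1| :=
    db_bound hb0 hg0 hε'0 rfl i2 (by rw [hdb]; ring)
  have hfin := yin_alg hτ.1 hτ.2 hY1 hε'0 hε' j7 j9 j6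
  rw [hcc] at hfin
  refine hfin.trans (le_of_eq ?_)
  rw [hgdef, ← hb₀]; ring

end Tau

end Vale.Agent.P268.T
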