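import Vale.Agent.P268.T.A306.TauDef

/-!
# P268, topological half: increments of links in logarithmic coordinates
-/

set_option linter.unusedSectionVars false

namespace Vale.Agent.P268.T

open Set Filter Topology

namespace Tau

section Log

variable {E : Type*} [NormedAddCommGroup E] [NormedSpace ℝ E]
  {E₁ : Type*} [NormedAddCommGroup E₁] [NormedSpace ℝ E₁]
  {Z : Type*} [NormedAddCommGroup Z] [NormedSpace ℝ Z]
  {T : Type*} [TopologicalSpace T]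

/-- Locally Lipschitz families. -/
def LipNear (s : Set T) (G : T → E → Z) (t₀ : T) (y₀ : E) : Prop :=
  ∃ L : ℝ, ∃ U ∈ 𝓝 y₀, ∀ᶠ t in 𝓝[s] t₀, ∀ y ∈ U, ∀ y' ∈ U, ‖G t y - G t y'‖ ≤ L * ‖y - y'‖

theorem LipNear.add {s : Set T} {F G : T → E → Z} {t₀ : T} {y₀ : E} (hF : LipNear s F t₀ y₀)
    (hG : LipNear s G t₀ y₀) : LipNear s (fun t y => F t y + G t y) t₀ y₀ := by
  obtain ⟨L, U, hU, h1⟩ := hF
  obtain ⟨L', U', hU', h2⟩ := hG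
  refine ⟨L + L', U ∩ U', inter_mem hU hU', ?_⟩
  filter_upwards [h1, h2] with t e1 e2 y hy y' hy'
  have e : F t y + G t y - (F t y' + G t y') = (F t y - F t y') + (G t y - G t y') := by abel
  rw [e, add_mul]
  exact (norm_add_le _ _).trans (add_le_add (e1 y hy.1 y' hy'.1) (e2 y hy.2 y' hy'.2))

/-- Composition of a regular Lipschitz family with a strictly differentiable submersion. -/
theorem comp_strict [FiniteDimensional ℝ E₁] {s : Set T} {G : T → E₁ → Z} {t₀ : T}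
    {x₀ : E} {ψ : E → E₁} {ψ' : E →L[ℝ] E₁} (hψ : HasStrictFDerivAt ψ ψ' x₀)
    (hsurj : Function.Surjective ψ') (hG : RegAt s G t₀ (ψ x₀)) (hLip : LipNear s G t₀ (ψ x₀)) :
    RegAt s (fun t x => G t (ψ x)) t₀ x₀ := by
  obtain ⟨k, hk0, hk1, A, U, hU, hev⟩ := hG
  obtain ⟨L, U₂, hU₂, hev₂⟩ := hLip
  obtain ⟨B', hB'⟩ := (ψ' : E →ₗ[ℝ] E₁).exists_rightInverse_of_surjective
    (LinearMap.range_eq_top.mpr hsurj)
  set B : E₁ →L[ℝ] E := LinearMap.toContinuousLinearMap B' with hB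
  have hψB : ∀ y, ψ' (B y) = y := fun y => LinearMap.congr_fun hB' y
  set A' : Z →L[ℝ] E := B.comp A with hA'
  set L' : ℝ := |L| + 1 with hL'
  have hL0 : 0 < L' := by positivity
  set ε : ℝ := (1 - k) / (2 * (L' * (‖A'‖ + 1))) with hε
  have hAp : 0 < ‖A'‖ + 1 := by positivity
  have hε0 : 0 < ε := by
    have : 0 < 1 - k := by linarith
    positivity
  obtain ⟨δ, hδ, hball⟩ := Metric.mem_nhds_iff.mp (inter_mem hU hU₂)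
  have h1 : ∀ᶠ p : E × E in 𝓝 (x₀, x₀), ‖ψ p.1 - ψ p.2 - ψ' (p.1 - p.2)‖ ≤ ε * ‖p.1 - p.2‖ :=
    hψ.isLittleO.def hε0
  have h2 : ∀ᶠ x in 𝓝 x₀, ψ x ∈ Metric.ball (ψ x₀) (δ / 2) :=
    hψ.continuousAt.eventually (Metric.ball_mem_nhds _ (by positivity))
  rw [nhds_prod_eq, eventually_prod_iff] at h1
  obtain ⟨pa, ha, pb, hb, hab⟩ := h1
  obtain ⟨r, hr, hball'⟩ := Metric.eventually_nhds_iff_ball.mp (ha.and (hb.and h2))
  set r' : ℝ := min r (δ / (4 * (ε + 1))) with hr'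
  have hr'0 : 0 < r' := lt_min hr (by positivity)
  refine ⟨(k + 1) / 2, by linarith, by linarith, A', Metric.ball x₀ r',
    Metric.ball_mem_nhds _ hr'0, ?_⟩
  filter_upwards [hev, hev₂] with t ht ht₂ x hx c hc
  have hxr : x ∈ Metric.ball x₀ r := Metric.ball_subset_ball (min_le_left _ _) hx
  have hcr : x + A' c ∈ Metric.ball x₀ r := Metric.ball_subset_ball (min_le_left _ _) hc
  have e1 := hball' x hxr
  have e2 := hball' _ hcr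
  set ρ : E₁ := ψ (x + A' c) - ψ x - A c with hρ
  have e3 : ‖ρ‖ ≤ ε * ‖A' c‖ := by
    have := hab e2.1 e1.2.1
    simp only [add_sub_cancel_left] at this
    have e4 : ψ' (A' c) = A c := hψB (A c)
    rw [e4] at this
    exact this
  have e5 : ‖A' c‖ < 2 * r' := by
    have h3 := Metric.mem_ball.mp hx
    have h4 := Metric.mem_ball.mp hc
    rw [dist_eq_norm] at h3 h4
    calc ‖A' c‖ = ‖(x + A' c - x₀) - (x - x₀)‖ := by congr 1; abel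
      _ ≤ ‖x + A' c - x₀‖ + ‖x - x₀‖ := norm_sub_le _ _
      _ < 2 * r' := by linarith
  have e6 : ‖ρ‖ < δ / 2 := by
    have h3 : r' ≤ δ / (4 * (ε + 1)) := min_le_right _ _
    have h4 : ε * ‖A' c‖ ≤ ε * (2 * r') := mul_le_mul_of_nonneg_left e5.le hε0.le
    have h5 : ε * (2 * r') ≤ ε * (2 * (δ / (4 * (ε + 1)))) := by
      refine mul_le_mul_of_nonneg_left ?_ hε0.le
      linarith
    have h6 : ε * (2 * (δ / (4 * (ε + 1)))) < δ / 2 := by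
      have : ε * (2 * (δ / (4 * (ε + 1)))) = (δ / 2) * (ε / (ε + 1)) := by
        field_simp; ring
      rw [this]
      have h7 : ε / (ε + 1) < 1 := (div_lt_one (by linarith)).mpr (by linarith)
      have h8 : 0 < δ / 2 := by positivity
      nlinarith
    linarith
  have hψx : ψ x ∈ U ∩ U₂ := hball (Metric.ball_subset_ball (by linarith) e1.2.2)
  have hψc : ψ (x + A' c) ∈ U ∩ U₂ := hball (Metric.ball_subset_ball (by linarith) e2.2.2)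
  have hmid : ψ x + A c ∈ U ∩ U₂ := by
    apply hball
    have h3 : ψ x + A c = ψ (x + A' c) - ρ := by rw [hρ]; abel
    rw [h3, Metric.mem_ball, dist_eq_norm]
    have h4 := Metric.mem_ball.mp e2.2.2
    rw [dist_eq_norm] at h4
    calc ‖ψ (x + A' c) - ρ - ψ x₀‖ = ‖(ψ (x + A' c) - ψ x₀) - ρ‖ := by congr 1; abel
      _ ≤ ‖ψ (x + A' c) - ψ x₀‖ + ‖ρ‖ := norm_sub_le _ _
      _ < δ := by linarith
  have h3 := ht _ hψx.1 c hmid.1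
  have h4 := ht₂ _ hψc.2 _ hmid.2
  have h5 : ‖G t (ψ (x + A' c)) - G t (ψ x + A c)‖ ≤ (1 - k) / 2 * ‖c‖ := by
    have e7 : ψ (x + A' c) - (ψ x + A c) = ρ := by rw [hρ]; abel
    rw [e7] at h4
    calc _ ≤ L * ‖ρ‖ := h4
      _ ≤ L' * ‖ρ‖ := mul_le_mul_of_nonneg_right
          (by rw [hL']; linarith [le_abs_self L]) (norm_nonneg _)
      _ ≤ L' * (ε * ((‖A'‖ + 1) * ‖c‖)) := by
          refine mul_le_mul_of_nonneg_left (e3.trans ?_) hL0.le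
          refine mul_le_mul_of_nonneg_left ?_ hε0.le
          exact (A'.le_opNorm c).trans (mul_le_mul_of_nonneg_right (by linarith) (norm_nonneg _))
      _ = (1 - k) / 2 * ‖c‖ := by
          rw [hε]
          field_simp
  have e8 : G t (ψ (x + A' c)) - G t (ψ x) - c =
      (G t (ψ x + A c) - G t (ψ x) - c) + (G t (ψ (x + A' c)) - G t (ψ x + A c)) := by abel
  rw [e8]
  refine (norm_add_le _ _).trans ?_
  calc _ ≤ k * ‖c‖ + (1 - k) / 2 * ‖c‖ := add_le_add h3 h5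
    _ = (k + 1) / 2 * ‖c‖ := by ring

theorem strict_log {y₀ : ℂ} (hy : y₀ ≠ 0) :
    HasStrictFDerivAt (fun y : ℂ => Complex.log (y / y₀))
      (((ContinuousLinearMap.toSpanSingleton ℂ (y₀⁻¹) : ℂ →L[ℂ] ℂ)).restrictScalars ℝ) y₀ := by
  have h1 : HasStrictDerivAt (fun y : ℂ => y / y₀) (y₀⁻¹) y₀ := by
    simpa using (hasStrictDerivAt_id y₀).div_const y₀
  have h2 : y₀ / y₀ = 1 := div_self hy
  have h3 := h1.clog (by rw [h2]; exact Complex.one_mem_slitPlane)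
  rw [h2, div_one] at h3
  exact (h3.hasStrictFDerivAt).restrictScalars ℝ

/-- **Logarithmic coordinates** in two variables. -/
theorem of_log {s : Set T} {F : T → ℂ × ℂ → ℂ} {t₀ : T} {y₀ z₀ : ℂ} (hy : y₀ ≠ 0) (hz : z₀ ≠ 0)
    (h : RegAt s (fun t (p : ℂ × ℂ) => F t (y₀ * Complex.exp p.1, z₀ * Complex.exp p.2)) t₀ 0)
    (hL : LipNear s (fun t (p : ℂ × ℂ) => F t (y₀ * Complex.exp p.1, z₀ * Complex.exp p.2)) t₀ 0) :
    RegAt s F t₀ (y₀, z₀) := by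
  set ψ : ℂ × ℂ → ℂ × ℂ := fun p => (Complex.log (p.1 / y₀), Complex.log (p.2 / z₀)) with hψdef
  have hψ : HasStrictFDerivAt ψ
      ((((ContinuousLinearMap.toSpanSingleton ℂ (y₀⁻¹) : ℂ →L[ℂ] ℂ)).restrictScalars ℝ).prodMap
        (((ContinuousLinearMap.toSpanSingleton ℂ (z₀⁻¹) : ℂ →L[ℂ] ℂ)).restrictScalars ℝ))
      (y₀, z₀) :=
    HasStrictFDerivAt.prodMap (p := (y₀, z₀)) (strict_log hy) (strict_log hz)
  have hψ0 : ψ (y₀, z₀) = 0 := by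
    simp [hψdef, div_self hy, div_self hz]
  have hsurj : Function.Surjective
      ((((ContinuousLinearMap.toSpanSingleton ℂ (y₀⁻¹) : ℂ →L[ℂ] ℂ)).restrictScalars ℝ).prodMap
        (((ContinuousLinearMap.toSpanSingleton ℂ (z₀⁻¹) : ℂ →L[ℂ] ℂ)).restrictScalars ℝ)) := by
    rintro ⟨c, d⟩
    refine ⟨(c * y₀, d * z₀), ?_⟩
    simp [hy, hz]
  have h1 := comp_strict hψ hsurj (s := s) (t₀ := t₀)
    (G := fun t (p : ℂ × ℂ) => F t (y₀ * Complex.exp p.1, z₀ * Complex.exp p.2))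
    (by rw [hψ0]; exact h) (by rw [hψ0]; exact hL)
  refine h1.congr ⟨{p | p.1 ≠ 0 ∧ p.2 ≠ 0}, ?_, Eventually.of_forall fun t p hp => ?_⟩
  · exact (continuousAt_fst.eventually_ne hy).and (continuousAt_snd.eventually_ne hz)
  · show F t (y₀ * Complex.exp (Complex.log (p.1 / y₀)), z₀ * Complex.exp (Complex.log (p.2 / z₀)))
      = F t p
    rw [Complex.exp_log (div_ne_zero hp.1 hy), Complex.exp_log (div_ne_zero hp.2 hz),
      mul_div_cancel₀ _ hy, mul_div_cancel₀ _ hz]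

/-- Regularity of Lipschitz families which are strongly monotone along a direction. -/
theorem of_mono {s : Set T} {F : T → E → ℂ} {t₀ : T} {x₀ : E} (hL : LipNear s F t₀ x₀) {ν : ℝ}
    (hν : 0 < ν) (A : ℂ →L[ℝ] E)
    (h : ∃ U ∈ 𝓝 x₀, ∀ᶠ t in 𝓝[s] t₀, ∀ x ∈ U, ∀ c, x + A c ∈ U →
      ν * ‖c‖ ^ 2 ≤ inner ℝ (F t (x + A c) - F t x) c) : RegAt s F t₀ x₀ := by
  obtain ⟨L, U, hU, h1⟩ := hL
  obtain ⟨V, hV, h2⟩ := h
  refine RegAt.of_monotone (κ := ν) (Λ := |L| * ‖A‖) hν A ⟨U ∩ V, inter_mem hU hV, ?_⟩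
  filter_upwards [h1, h2] with t e1 e2 x hx c hc
  refine ⟨e2 x hx.2 c hc.2, ?_⟩
  have h3 := e1 _ hc.1 _ hx.1
  rw [add_sub_cancel_left] at h3
  calc _ ≤ L * ‖A c‖ := h3
    _ ≤ |L| * ‖A c‖ := mul_le_mul_of_nonneg_right (le_abs_self _) (norm_nonneg _)
    _ ≤ |L| * (‖A‖ * ‖c‖) := mul_le_mul_of_nonneg_left (A.le_opNorm c) (abs_nonneg _)
    _ = _ := by ring

end Log

/-! ### Families of phases -/

variable {Θ : Type*} [TopologicalSpace Θ]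

/-- Families of phases. -/
structure PhFam (s : Set Θ) (K : ℝ) (τ : Θ → ℝ) (W : Θ → ℝ → ℝ) (Ω : Θ → ℝ → ℝ → ℝ) : Prop where
  K0 : 0 ≤ K
  τc : ContinuousOn τ s
  τm : ∀ θ ∈ s, τ θ ∈ Icc (0 : ℝ) 1
  Wc : ∀ g, ContinuousOn (fun θ => W θ g) s
  Ωc : ∀ α g, ContinuousOn (fun θ => Ω θ α g) s
  Wlip : ∀ θ ∈ s, ∀ g g', |W θ g' - W θ g| ≤ K * |g' - g|
  lip1 : ∀ θ ∈ s, ∀ α α' g, |Ω θ α' g - Ω θ α g| ≤ K * |α' - α|
  lip2 : ∀ θ ∈ s, ∀ α g g', |Ω θ α g' - Ω θ α g| ≤ K * |g' - g|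
  Wper : ∀ θ ∈ s, Function.Periodic (fun g => ei (W θ g)) (2 * Real.pi)
  per1 : ∀ θ ∈ s, ∀ g, Function.Periodic (fun α => ei (Ω θ α g)) (2 * Real.pi)
  per2 : ∀ θ ∈ s, ∀ α, Function.Periodic (fun g => ei (Ω θ α g)) (2 * Real.pi)

/-- The five real functions in logarithmic coordinates. -/
noncomputable def vv (l : ℝ) (y₀ z₀ : ℂ) (τ : Θ → ℝ) (W : Θ → ℝ → ℝ) (Ω : Θ → ℝ → ℝ → ℝ) (θ : Θ)
    (x : ℂ × ℂ) : ℝ × ℝ × ℝ × ℝ × ℝ :=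
  (τ θ, ‖z₀‖ * Real.exp x.2.re,
    min (l * ‖y₀‖ * Real.exp x.1.re) (‖z₀‖ * Real.exp x.2.re),
    W θ (z₀.arg + x.2.im), Ω θ (y₀.arg + x.1.im) (z₀.arg + x.2.im))

theorem plk_exp {s : Set Θ} {K : ℝ} {τ : Θ → ℝ} {W : Θ → ℝ → ℝ} {Ω : Θ → ℝ → ℝ → ℝ}
    (h : PhFam s K τ W Ω) {y₀ z₀ : ℂ} (hy : y₀ ≠ 0) (hz : z₀ ≠ 0) (l : ℝ) {θ : Θ} (hθ : θ ∈ s)
    (x : ℂ × ℂ) :
    plk l (τ θ) (W θ) (Ω θ) (y₀ * Complex.exp x.1) (z₀ * Complex.exp x.2) =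
      Gf (vv l y₀ z₀ τ W Ω θ x) := by
  have e1 : ei (W θ (z₀ * Complex.exp x.2).arg) = ei (W θ (z₀.arg + x.2.im)) :=
    per_arg (h.Wper θ hθ) hz x.2
  have e2 : ei (Ω θ (y₀ * Complex.exp x.1).arg (z₀ * Complex.exp x.2).arg) =
      ei (Ω θ (y₀.arg + x.1.im) (z₀.arg + x.2.im)) := by
    rw [per_arg (f := fun g => ei (Ω θ (y₀ * Complex.exp x.1).arg g)) (h.per2 θ hθ _) hz x.2]
    exact per_arg (f := fun α => ei (Ω θ α (z₀.arg + x.2.im))) (h.per1 θ hθ _) hy x.1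
  have e3 : ‖z₀ * Complex.exp x.2‖ = ‖z₀‖ * Real.exp x.2.re := by
    rw [norm_mul, Complex.norm_exp]
  have e4 : l * ‖y₀ * Complex.exp x.1‖ = l * ‖y₀‖ * Real.exp x.1.re := by
    rw [norm_mul, Complex.norm_exp]; ring
  unfold plk Gf vv bm
  rw [e1, e2, e3, e4]

theorem abs_min_sub (a b a' b' : ℝ) : |min a' b' - min a b| ≤ |a' - a| + |b' - b| := by
  have h := min_incr a b a' b'
  rw [abs_le]
  constructor
  · refine le_trans ?_ h.1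
    refine le_min ?_ ?_
    · linarith [neg_abs_le (a' - a), abs_nonneg (b' - b)]
    · linarith [neg_abs_le (b' - b), abs_nonneg (a' - a)]
  · refine h.2.trans (max_le ?_ ?_)
    · linarith [le_abs_self (a' - a), abs_nonneg (b' - b)]
    · linarith [le_abs_self (b' - b), abs_nonneg (a' - a)]

theorem abs_exp_sub_le {a b : ℝ} (ha : |a| ≤ 1) (hb : |b| ≤ 1) :
    |Real.exp a - Real.exp b| ≤ 3 * |a - b| := by
  wlog hab : b ≤ a generalizing a b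
  · rw [abs_sub_comm, abs_sub_comm a b]
    exact this hb ha (not_le.mp hab).le
  have h1 : Real.exp a - Real.exp b = Real.exp a * (1 - Real.exp (-(a - b))) := by
    rw [mul_sub, mul_one, ← Real.exp_add]; ring_nf
  have h2 : 1 - Real.exp (-(a - b)) ≤ a - b := by
    have := Real.add_one_le_exp (-(a - b)); linarith
  have h3 : 0 ≤ 1 - Real.exp (-(a - b)) := by
    have : Real.exp (-(a - b)) ≤ 1 := by
      rw [Real.exp_le_one_iff]; linarith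
    linarith
  have h4 : Real.exp a ≤ 3 := by
    have : Real.exp a ≤ Real.exp 1 := Real.exp_le_exp.mpr (abs_le.mp ha).2
    have := Real.exp_one_lt_d9
    linarith
  rw [h1, abs_mul, abs_of_pos (Real.exp_pos a), abs_of_nonneg h3, abs_of_nonneg (by linarith)]
  exact mul_le_mul h4 h2 h3 (by norm_num)

theorem mem_ball_re {x : ℂ × ℂ} (hx : x ∈ Metric.ball (0 : ℂ × ℂ) 1) :
    |x.1.re| ≤ 1 ∧ |x.2.re| ≤ 1 := by
  rw [mem_ball_zero_iff] at hx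
  exact ⟨(Complex.abs_re_le_norm _).trans ((norm_fst_le x).trans hx.le),
    (Complex.abs_re_le_norm _).trans ((norm_snd_le x).trans hx.le)⟩

/-- The five functions are Lipschitz, uniformly in the parameter. -/
theorem vv_lip {s : Set Θ} {K : ℝ} {τ : Θ → ℝ} {W : Θ → ℝ → ℝ} {Ω : Θ → ℝ → ℝ → ℝ}
    (h : PhFam s K τ W Ω) (y₀ z₀ : ℂ) {l : ℝ} (hl : 0 ≤ l) :
    ∃ C : ℝ, 0 ≤ C ∧ ∀ θ ∈ s, ∀ x ∈ Metric.ball (0 : ℂ × ℂ) 1, ∀ x' ∈ Metric.ball (0 : ℂ × ℂ) 1,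
      ‖vv l y₀ z₀ τ W Ω θ x' - vv l y₀ z₀ τ W Ω θ x‖ ≤ C * ‖x' - x‖ := by
  have hK := h.K0
  refine ⟨3 * (l * ‖y₀‖) + 3 * ‖z₀‖ + 2 * K, by positivity, fun θ hθ x hx x' hx' => ?_⟩
  set n : ℝ := ‖x' - x‖ with hn
  have hn0 : 0 ≤ n := norm_nonneg _
  have n1 : ‖x'.1 - x.1‖ ≤ n := norm_fst_le (x' - x)
  have n2 : ‖x'.2 - x.2‖ ≤ n := norm_snd_le (x' - x)
  have a1 : |x'.1.re - x.1.re| ≤ n := (Complex.abs_re_le_norm (x'.1 - x.1)).trans n1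
  have a2 : |x'.2.re - x.2.re| ≤ n := (Complex.abs_re_le_norm (x'.2 - x.2)).trans n2
  have a3 : |x'.1.im - x.1.im| ≤ n := (Complex.abs_im_le_norm (x'.1 - x.1)).trans n1
  have a4 : |x'.2.im - x.2.im| ≤ n := (Complex.abs_im_le_norm (x'.2 - x.2)).trans n2
  have b1 := mem_ball_re hx
  have b2 := mem_ball_re hx'
  have c1 : |‖z₀‖ * Real.exp x'.2.re - ‖z₀‖ * Real.exp x.2.re| ≤ 3 * ‖z₀‖ * n := by
    rw [← mul_sub, abs_mul, abs_of_nonneg (norm_nonneg z₀)]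
    have := (abs_exp_sub_le b2.2 b1.2).trans (mul_le_mul_of_nonneg_left a2 (by norm_num))
    calc ‖z₀‖ * |Real.exp x'.2.re - Real.exp x.2.re| ≤ ‖z₀‖ * (3 * n) :=
          mul_le_mul_of_nonneg_left this (norm_nonneg _)
      _ = _ := by ring
  have c2 : |l * ‖y₀‖ * Real.exp x'.1.re - l * ‖y₀‖ * Real.exp x.1.re| ≤
      3 * (l * ‖y₀‖) * n := by
    have hp : 0 ≤ l * ‖y₀‖ := by positivity
    rw [← mul_sub, abs_mul, abs_of_nonneg hp]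
    have := (abs_exp_sub_le b2.1 b1.1).trans (mul_le_mul_of_nonneg_left a1 (by norm_num))
    calc l * ‖y₀‖ * |Real.exp x'.1.re - Real.exp x.1.re| ≤ l * ‖y₀‖ * (3 * n) :=
          mul_le_mul_of_nonneg_left this hp
      _ = _ := by ring
  have c3 := (abs_min_sub (l * ‖y₀‖ * Real.exp x.1.re) (‖z₀‖ * Real.exp x.2.re)
    (l * ‖y₀‖ * Real.exp x'.1.re) (‖z₀‖ * Real.exp x'.2.re)).trans (add_le_add c2 c1)
  have c4 : |W θ (z₀.arg + x'.2.im) - W θ (z₀.arg + x.2.im)| ≤ K * n := by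
    refine (h.Wlip θ hθ _ _).trans (mul_le_mul_of_nonneg_left ?_ hK)
    rw [add_sub_add_left_eq_sub]; exact a4
  have c5 : |Ω θ (y₀.arg + x'.1.im) (z₀.arg + x'.2.im) -
      Ω θ (y₀.arg + x.1.im) (z₀.arg + x.2.im)| ≤ 2 * K * n := by
    have d1 := h.lip1 θ hθ (y₀.arg + x.1.im) (y₀.arg + x'.1.im) (z₀.arg + x'.2.im)
    have d2 := h.lip2 θ hθ (y₀.arg + x.1.im) (z₀.arg + x.2.im) (z₀.arg + x'.2.im)
    rw [add_sub_add_left_eq_sub] at d1 d2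
    have d3 := d1.trans (mul_le_mul_of_nonneg_left a3 hK)
    have d4 := d2.trans (mul_le_mul_of_nonneg_left a4 hK)
    have := abs_add_le (Ω θ (y₀.arg + x'.1.im) (z₀.arg + x'.2.im) -
      Ω θ (y₀.arg + x.1.im) (z₀.arg + x'.2.im)) (Ω θ (y₀.arg + x.1.im) (z₀.arg + x'.2.im) -
      Ω θ (y₀.arg + x.1.im) (z₀.arg + x.2.im))
    rw [sub_add_sub_cancel] at this
    linarith
  have hz : 0 ≤ ‖z₀‖ * n := by positivity
  have hy : 0 ≤ l * ‖y₀‖ * n := by positivity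
  have hk : 0 ≤ K * n := by positivity
  unfold vv
  simp only [Prod.mk_sub_mk, sub_self, Prod.norm_def, Real.norm_eq_abs, abs_zero, max_le_iff]
  refine ⟨?_, ?_, ?_, ?_, ?_⟩ <;> nlinarith

theorem vv_tendsto {s : Set Θ} {K : ℝ} {τ : Θ → ℝ} {W : Θ → ℝ → ℝ} {Ω : Θ → ℝ → ℝ → ℝ}
    (h : PhFam s K τ W Ω) (y₀ z₀ : ℂ) {l : ℝ} (hl : 0 ≤ l) {θ₀ : Θ} (hθ₀ : θ₀ ∈ s) :
    ∀ V ∈ 𝓝 (vv l y₀ z₀ τ W Ω θ₀ 0), ∃ U ∈ 𝓝 (0 : ℂ × ℂ), ∀ᶠ θ in 𝓝[s] θ₀, ∀ x ∈ U,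
      vv l y₀ z₀ τ W Ω θ x ∈ V := by
  intro V hV
  obtain ⟨C, hC0, hC⟩ := vv_lip h y₀ z₀ hl
  obtain ⟨R, hR, hRV⟩ := Metric.mem_nhds_iff.mp hV
  refine ⟨Metric.ball 0 (min 1 (R / (2 * (C + 1)))), Metric.ball_mem_nhds _ (by positivity), ?_⟩
  have h1 : Tendsto (fun θ => vv l y₀ z₀ τ W Ω θ 0) (𝓝[s] θ₀) (𝓝 (vv l y₀ z₀ τ W Ω θ₀ 0)) := by
    unfold vv
    refine (h.τc θ₀ hθ₀).prodMk_nhds (tendsto_const_nhds.prodMk_nhds
      (tendsto_const_nhds.prodMk_nhds (((h.Wc _) θ₀ hθ₀).prodMk_nhds ((h.Ωc _ _) θ₀ hθ₀))))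
  have h2 := h1.eventually (Metric.ball_mem_nhds _ (half_pos hR))
  filter_upwards [h2, self_mem_nhdsWithin] with θ e1 e2 x hx
  apply hRV
  have hx1 : x ∈ Metric.ball (0 : ℂ × ℂ) 1 := Metric.ball_subset_ball (min_le_left _ _) hx
  have hx2 : ‖x‖ < R / (2 * (C + 1)) := by
    have := Metric.ball_subset_ball (min_le_right _ _) hx
    rwa [mem_ball_zero_iff] at this
  have h3 := hC θ e2 0 (Metric.mem_ball_self one_pos) x hx1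
  rw [sub_zero] at h3
  rw [Metric.mem_ball]
  have h4 : C * ‖x‖ ≤ R / 2 := by
    have h5 : C * ‖x‖ ≤ (C + 1) * ‖x‖ := mul_le_mul_of_nonneg_right (by linarith) (norm_nonneg _)
    have h6 : (C + 1) * ‖x‖ ≤ (C + 1) * (R / (2 * (C + 1))) :=
      mul_le_mul_of_nonneg_left hx2.le (by positivity)
    have h7 : (C + 1) * (R / (2 * (C + 1))) = R / 2 := by field_simp
    linarith
  calc dist (vv l y₀ z₀ τ W Ω θ x) (vv l y₀ z₀ τ W Ω θ₀ 0)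
      ≤ dist (vv l y₀ z₀ τ W Ω θ x) (vv l y₀ z₀ τ W Ω θ 0) +
        dist (vv l y₀ z₀ τ W Ω θ 0) (vv l y₀ z₀ τ W Ω θ₀ 0) := dist_triangle _ _ _
    _ < R := by rw [dist_eq_norm (vv l y₀ z₀ τ W Ω θ x)]; linarith

/-- The linearised increment. -/
noncomputable def Elin (v₀ v v' : ℝ × ℝ × ℝ × ℝ × ℝ) : ℂ :=
  (v₀.1 * ((v'.2.1 - v.2.1) - (v'.2.2.1 - v.2.2.1))) • ei v₀.2.2.2.1 +
    (v₀.1 * (v₀.2.1 - v₀.2.2.1) * (v'.2.2.2.1 - v.2.2.2.1)) • (Complex.I * ei v₀.2.2.2.1) +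
    (v'.2.2.1 - v.2.2.1) • ei v₀.2.2.2.2 +
    (v₀.2.2.1 * (v'.2.2.2.2 - v.2.2.2.2)) • (Complex.I * ei v₀.2.2.2.2)

/-- **Increments.** -/
theorem incr {s : Set Θ} {K : ℝ} {τ : Θ → ℝ} {W : Θ → ℝ → ℝ} {Ω : Θ → ℝ → ℝ → ℝ}
    (h : PhFam s K τ W Ω) (y₀ z₀ : ℂ) {l : ℝ} (hl : 0 ≤ l) {θ₀ : Θ} (hθ₀ : θ₀ ∈ s) {ε : ℝ}
    (hε : 0 < ε) : ∃ U ∈ 𝓝 (0 : ℂ × ℂ), ∀ᶠ θ in 𝓝[s] θ₀, ∀ x ∈ U, ∀ x' ∈ U,
      ‖Gf (vv l y₀ z₀ τ W Ω θ x') - Gf (vv l y₀ z₀ τ W Ω θ x) -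
        Elin (vv l y₀ z₀ τ W Ω θ₀ 0) (vv l y₀ z₀ τ W Ω θ x) (vv l y₀ z₀ τ W Ω θ x')‖ ≤
      ε * ‖x' - x‖ := by
  obtain ⟨C, hC0, hC⟩ := vv_lip h y₀ z₀ hl
  obtain ⟨G', hG', hlin⟩ := Gf_strict (vv l y₀ z₀ τ W Ω θ₀ 0)
  have h1 := hG'.isLittleO.def (c := ε / (C + 1)) (by positivity)
  rw [nhds_prod_eq, eventually_prod_iff] at h1
  obtain ⟨pa, ha, pb, hb, hab⟩ := h1
  obtain ⟨U, hU, hUV⟩ := vv_tendsto h y₀ z₀ hl hθ₀ {v | pa v ∧ pb v} (ha.and hb)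
  refine ⟨U ∩ Metric.ball 0 1, inter_mem hU (Metric.ball_mem_nhds _ one_pos), ?_⟩
  filter_upwards [hUV, self_mem_nhdsWithin] with θ e1 e2 x hx x' hx'
  have e3 := hab (e1 x' hx'.1).1 (e1 x hx.1).2
  have e4 := hC θ e2 x hx.2 x' hx'.2
  have e5 : G' (vv l y₀ z₀ τ W Ω θ x' - vv l y₀ z₀ τ W Ω θ x) =
      Elin (vv l y₀ z₀ τ W Ω θ₀ 0) (vv l y₀ z₀ τ W Ω θ x) (vv l y₀ z₀ τ W Ω θ x') := by
    have e6 : vv l y₀ z₀ τ W Ω θ x' - vv l y₀ z₀ τ W Ω θ x =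
        (0, (vv l y₀ z₀ τ W Ω θ x').2.1 - (vv l y₀ z₀ τ W Ω θ x).2.1,
          (vv l y₀ z₀ τ W Ω θ x').2.2.1 - (vv l y₀ z₀ τ W Ω θ x).2.2.1,
          (vv l y₀ z₀ τ W Ω θ x').2.2.2.1 - (vv l y₀ z₀ τ W Ω θ x).2.2.2.1,
          (vv l y₀ z₀ τ W Ω θ x').2.2.2.2 - (vv l y₀ z₀ τ W Ω θ x).2.2.2.2) := by
      unfold vv
      simp
    rw [e6, hlin]
    rfl
  simp only at e3
  rw [e5] at e3
  refine e3.trans ?_
  calc ε / (C + 1) * ‖vv l y₀ z₀ τ W Ω θ x' - vv l y₀ z₀ τ W Ω θ x‖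
      ≤ ε / (C + 1) * ((C + 1) * ‖x' - x‖) := by
        refine mul_le_mul_of_nonneg_left (e4.trans ?_) (by positivity)
        exact mul_le_mul_of_nonneg_right (by linarith) (norm_nonneg _)
    _ = ε * ‖x' - x‖ := by field_simp

/-- The link is Lipschitz in logarithmic coordinates. -/
theorem lipNear_Gf {s : Set Θ} {K : ℝ} {τ : Θ → ℝ} {W : Θ → ℝ → ℝ} {Ω : Θ → ℝ → ℝ → ℝ}
    (h : PhFam s K τ W Ω) (y₀ z₀ : ℂ) {l : ℝ} (hl : 0 ≤ l) {θ₀ : Θ} (hθ₀ : θ₀ ∈ s) :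
    LipNear s (fun θ x => Gf (vv l y₀ z₀ τ W Ω θ x)) θ₀ (0 : ℂ × ℂ) := by
  obtain ⟨C, hC0, hC⟩ := vv_lip h y₀ z₀ hl
  obtain ⟨G', hG', -⟩ := Gf_strict (vv l y₀ z₀ τ W Ω θ₀ 0)
  obtain ⟨L, V, hV, hLV⟩ := hG'.exists_lipschitzOnWith
  obtain ⟨U, hU, hUV⟩ := vv_tendsto h y₀ z₀ hl hθ₀ V hV
  refine ⟨L * C, U ∩ Metric.ball 0 1, inter_mem hU (Metric.ball_mem_nhds _ one_pos), ?_⟩
  filter_upwards [hUV, self_mem_nhdsWithin] with θ e1 e2 x hx x' hx'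
  have e3 := hLV.norm_sub_le (e1 x hx.1) (e1 x' hx'.1)
  refine e3.trans ?_
  rw [mul_assoc]
  exact mul_le_mul_of_nonneg_left (hC θ e2 x' hx'.2 x hx.2) L.2

end Tau

end Vale.Agent.P268.T
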