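import Vale.Agent.P268.T.H548.Tail
import Vale.Agent.P268.T.Polar
import Vale.Agent.P268.T.Mono

/-!
# P268, topological half: links with general phases

`plk l τ W Ω y z = τ (|z| - b) e^{i W (arg z)} + b e^{i Ω (arg y, arg z)}`, `b = min (l |y|) |z|`,
for quasi-periodic lifts `W`, `Ω`.  `mfam` is the two-step straight path from the chain link
`b e^{i (arg y + a arg z)}` to `plk l 1 W Ω`.
-/

namespace Vale.Agent.P268.T

open Set Filter Topology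

namespace Tau

/-- The modulus `min (l |y|) |z|`. -/
noncomputable def bm (l : ℝ) (y z : ℂ) : ℝ := min (l * ‖y‖) ‖z‖

/-- The unit vector `e^{i x}`. -/
noncomputable def ei (x : ℝ) : ℂ := Complex.exp (x * Complex.I)

/-- The link with modulus `bm l`, weight `τ` and phase `W` of the core, phase `Ω`. -/
noncomputable def plk (l τ : ℝ) (W : ℝ → ℝ) (Ω : ℝ → ℝ → ℝ) (y z : ℂ) : ℂ :=
  (τ * (‖z‖ - bm l y z)) • ei (W z.arg) + bm l y z • ei (Ω y.arg z.arg)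

/-- Quasi-periodic monotone Lipschitz lifts. -/
structure Lift (a : ℕ) (K D : ℝ) (W : ℝ → ℝ) (Ω : ℝ → ℝ → ℝ) : Prop where
  K0 : 0 ≤ K
  Wmono : Monotone W
  Wlip : ∀ g g', |W g' - W g| ≤ K * |g' - g|
  Wper : ∀ g, W (g + 2 * Real.pi) = W g + (a + 1) * (2 * Real.pi)
  Wbd : ∀ g, |W g - (a + 1) * g| ≤ D
  mono1 : ∀ g, Monotone fun α => Ω α g
  mono2 : ∀ α, Monotone (Ω α)
  lip1 : ∀ α α' g, |Ω α' g - Ω α g| ≤ K * |α' - α|
  lip2 : ∀ α g g', |Ω α g' - Ω α g| ≤ K * |g' - g|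
  per1 : ∀ α g, Ω (α + 2 * Real.pi) g = Ω α g + 2 * Real.pi
  per2 : ∀ α g, Ω α (g + 2 * Real.pi) = Ω α g + a * (2 * Real.pi)
  bd : ∀ α g, |Ω α g - (α + a * g)| ≤ D

/-- The path of core phases. -/
def Wt (a : ℕ) (t : ℝ) (W : ℝ → ℝ) (g : ℝ) : ℝ := (1 - t) * ((a + 1) * g) + t * W g

/-- The path of phases. -/
def Ωt (a : ℕ) (t : ℝ) (Ω : ℝ → ℝ → ℝ) (α g : ℝ) : ℝ := (1 - t) * (α + a * g) + t * Ω α g

/-- The parameters of the path: first `τ` from `0` to `1`, then `t` from `0` to `1`. -/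
def dom : Set (ℝ × ℝ) := {p | p.1 ∈ Icc (0 : ℝ) 1 ∧ p.2 ∈ Icc (0 : ℝ) 1 ∧ (p.2 = 0 ∨ p.1 = 1)}

/-- The path from the chain link to `plk l 1 W Ω`. -/
noncomputable def mfam (a : ℕ) (l : ℝ) (W : ℝ → ℝ) (Ω : ℝ → ℝ → ℝ) (p : ℝ × ℝ) (y z : ℂ) : ℂ :=
  plk l p.1 (Wt a p.2 W) (Ωt a p.2 Ω) y z

/-- The trichotomy for the final phases. -/
structure Tri (σ v : ℝ) (W : ℝ → ℝ) (Ω : ℝ → ℝ → ℝ) : Prop where
  σ0 : 0 < σ
  v0 : 0 < v
  tri : ∀ α₀ g₀ : ℝ,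
    (∃ δ > 0, ∀ α α' g, |α - α₀| < δ → |α' - α₀| < δ → |g - g₀| < δ → α ≤ α' →
      σ * (α' - α) ≤ Ω α' g - Ω α g) ∨
    ei (Ω α₀ g₀) = ei (W g₀) ∨
    (ei (Ω α₀ g₀) = -1 ∧ ∃ δ > 0, (∀ α g g', |α - α₀| < δ → |g - g₀| < δ → |g' - g₀| < δ →
      Ω α g = Ω α g') ∧ ∀ g g', |g - g₀| < δ → |g' - g₀| < δ → g ≤ g' →
      v * (g' - g) ≤ W g' - W g)

/-! ### The unit vectors -/

theorem norm_ei (x : ℝ) : ‖ei x‖ = 1 := Complex.norm_exp_ofReal_mul_I x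

theorem ei_ne_zero (x : ℝ) : ei x ≠ 0 := Complex.exp_ne_zero _

theorem ei_add (x y : ℝ) : ei (x + y) = ei x * ei y := by
  unfold ei
  rw [← Complex.exp_add]
  push_cast
  ring_nf

theorem ei_two_pi : ei (2 * Real.pi) = 1 := by
  unfold ei
  push_cast
  exact Complex.exp_two_pi_mul_I

theorem ei_nat (n : ℕ) : ei (n * (2 * Real.pi)) = 1 := by
  induction n with
  | zero => simp [ei]
  | succ n ih =>
    have : ((n + 1 : ℕ) : ℝ) * (2 * Real.pi) = n * (2 * Real.pi) + 2 * Real.pi := by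
      push_cast; ring
    rw [this, ei_add, ih, ei_two_pi, one_mul]

theorem ei_zero : ei 0 = 1 := by simp [ei]

theorem ei_neg (x : ℝ) : ei (-x) * ei x = 1 := by
  rw [← ei_add]; simp [ei_zero]

/-- Change of angles. -/
theorem arg_mul_exp {z : ℂ} (hz : z ≠ 0) (q : ℂ) :
    ∃ n : ℤ, (z * Complex.exp q).arg = z.arg + q.im + n * (2 * Real.pi) := by
  have h1 : ((z * Complex.exp q).arg : Real.Angle) = ((z.arg + q.im : ℝ) : Real.Angle) := by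
    rw [Complex.arg_mul_coe_angle hz (Complex.exp_ne_zero q), Complex.arg_exp,
      Real.Angle.coe_toIocMod]
    rfl
  rw [Real.Angle.angle_eq_iff_two_pi_dvd_sub] at h1
  obtain ⟨k, hk⟩ := h1
  exact ⟨k, by linarith⟩

theorem per_arg {α : Type*} {f : ℝ → α} (hf : Function.Periodic f (2 * Real.pi)) {z : ℂ}
    (hz : z ≠ 0) (q : ℂ) : f (z * Complex.exp q).arg = f (z.arg + q.im) := by
  obtain ⟨n, hn⟩ := arg_mul_exp hz q
  rw [hn]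
  exact hf.int_mul n _

/-! ### The smooth function -/

/-- `G (τ, R, b, W, ω) = τ (R - b) e^{iW} + b e^{iω}`. -/
noncomputable def Gf (v : ℝ × ℝ × ℝ × ℝ × ℝ) : ℂ :=
  (v.1 * (v.2.1 - v.2.2.1)) • ei v.2.2.2.1 + v.2.2.1 • ei v.2.2.2.2

theorem hasStrictDerivAt_ei (x : ℝ) : HasStrictDerivAt ei (Complex.I * ei x) x := by
  have h1 : HasStrictDerivAt (fun x : ℝ => (x : ℂ) * Complex.I) (1 * Complex.I) x :=
    (Complex.ofRealCLM.hasStrictDerivAt (x := x)).mul_const Complex.I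
  have h2 := h1.cexp
  have e : Complex.exp (x * Complex.I) * (1 * Complex.I) = Complex.I * ei x := by
    unfold ei; ring
  rw [e] at h2
  exact h2

theorem Gf_strict (v₀ : ℝ × ℝ × ℝ × ℝ × ℝ) : ∃ G' : (ℝ × ℝ × ℝ × ℝ × ℝ) →L[ℝ] ℂ,
    HasStrictFDerivAt Gf G' v₀ ∧ ∀ dR db dW dω : ℝ, G' (0, dR, db, dW, dω) =
      (v₀.1 * (dR - db)) • ei v₀.2.2.2.1 +
      (v₀.1 * (v₀.2.1 - v₀.2.2.1) * dW) • (Complex.I * ei v₀.2.2.2.1) +
      db • ei v₀.2.2.2.2 + (v₀.2.2.1 * dω) • (Complex.I * ei v₀.2.2.2.2) := by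
  have c1 : HasStrictFDerivAt (fun v : ℝ × ℝ × ℝ × ℝ × ℝ => v.1)
      (ContinuousLinearMap.fst ℝ ℝ (ℝ × ℝ × ℝ × ℝ)) v₀ := hasStrictFDerivAt_fst
  have s1 : HasStrictFDerivAt (fun v : ℝ × ℝ × ℝ × ℝ × ℝ => v.2)
      (ContinuousLinearMap.snd ℝ ℝ (ℝ × ℝ × ℝ × ℝ)) v₀ := hasStrictFDerivAt_snd
  have c2 := s1.fst
  have s2 := s1.snd
  have c3 := s2.fst
  have s3 := s2.snd
  have c4 := s3.fst
  have c5 := s3.snd
  have e4 := (hasStrictDerivAt_ei v₀.2.2.2.1).hasStrictFDerivAt.comp v₀ c4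
  have e5 := (hasStrictDerivAt_ei v₀.2.2.2.2).hasStrictFDerivAt.comp v₀ c5
  have h1 := ((c1.mul (c2.sub c3)).smul e4).add (c3.smul e5)
  refine ⟨_, h1, fun dR db dW dω => ?_⟩
  simp
  ring

end Tau

end Vale.Agent.P268.T
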