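import Vale.Agent.P268.T.A306.TauReg
import Vale.Agent.P268.T.H740.Y0
import Vale.Agent.P268.T.H548.TauPlug
import Vale.Agent.P268.T.H671.LevDone

/-!
# P268, topological half, route V: the tau and phase move, final form

`regLt`, `regY0`: the static regularity of the tau and phase move.  `tauPhaseW`: the tau and phase
move `RV.TauPhaseW`, without hypothesis.
-/

set_option linter.unusedSectionVars false

namespace Vale.Agent.P268.T.Tau

open Set Filter Topology Vale.Agent.P268.T.RV Vale.Agent.P268.T.TP548 Vale.Agent.P268.T.H740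

/-- Static regularity at the points `y₀ ≠ 0`, `z₀ ≠ 0`, before the end of the path. -/
theorem regLt : RegLt := by
  intro E _ _ _ L B hB a K D σ v W Ω ha hL hT
  exact reg_lt hB ha hL hT

/-- Static regularity at the points `y₀ = 0`, `z₀ ≠ 0`, before the end of the path. -/
theorem regY0 : RegY0 := by
  intro E _ _ _ L B hB a K D σ v W Ω ha hL hT
  have hlip : ∀ X y y', ‖B (X, y) - B (X, y')‖ ≤ L * ‖y - y'‖ :=
    fun X y y' => hB.lip () (mem_univ _) X y y'
  have hL0 : 0 ≤ L := by
    have := (norm_nonneg _).trans (hlip 0 1 0)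
    simpa using this
  refine ⟨L + 1, fun l hl p hp hp2 X₀ z₀ hz _ => ?_⟩
  exact H740.reg_y0 hL hL0 (by linarith) hlip hp hp2 X₀ hz

/-- **The tau and phase move.** -/
theorem tauPhaseW : TauPhaseW (fun a => 2 * (1 + CK a (K2 a))) :=
  tauPhaseW_of regLt regY0 C671.levTameW

end Vale.Agent.P268.T.Tau
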