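import Vale.Agent.P268.T.A306.TauReg
import Vale.Agent.P268.T.H740.Static2

/-!
# P268, topological half: the path of links is tame
-/

set_option linter.unusedSectionVars false

namespace Vale.Agent.P268.T

open Set Filter Topology H740

namespace Tau

variable {E : Type*} [NormedAddCommGroup E] [NormedSpace ℝ E]

theorem Wt_one (a : ℕ) (W : ℝ → ℝ) : Wt a 1 W = W := by
  funext g; unfold Wt; ring

theorem Ωt_one (a : ℕ) (Ω : ℝ → ℝ → ℝ) : Ωt a 1 Ω = Ω := by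
  funext α g; unfold Ωt; ring

theorem mfam_one (a : ℕ) (l : ℝ) (W : ℝ → ℝ) (Ω : ℝ → ℝ → ℝ) :
    mfam a l W Ω (1, 1) = plk l 1 W Ω := by
  funext y z
  unfold mfam
  rw [Wt_one, Ωt_one]

theorem mem_dom_zero : ((0, 0) : ℝ × ℝ) ∈ dom :=
  ⟨⟨le_rfl, zero_le_one⟩, ⟨le_rfl, zero_le_one⟩, Or.inl rfl⟩

theorem mem_dom_one : ((1, 1) : ℝ × ℝ) ∈ dom :=
  ⟨⟨zero_le_one, le_rfl⟩, ⟨zero_le_one, le_rfl⟩, Or.inr rfl⟩

/-- **TAU + PHASE**, with the case `y₀ = 0` and the end of the path as hypotheses. -/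
theorem tauPhase_of [FiniteDimensional ℝ E] {B : E × ℂ → ℂ} {L : ℝ}
    (hB : Tame (univ : Set Unit) L (fun _ => B)) {a : ℕ} (ha : 1 ≤ a) {K D K2 σ v : ℝ}
    {W : ℝ → ℝ} {Ω : ℝ → ℝ → ℝ} (hL : Lift a K D W Ω) (hT : Tri σ v W Ω) (h1 : 1 ≤ K2)
    (hW : ∀ g g', |W g' - W g| ≤ K2 * |g' - g|)
    (hΩ : ∀ α g g', |Ω α g' - Ω α g| ≤ K2 * |g' - g|)
    (hy0 : ∃ l₀ : ℝ, ∀ l ≥ l₀, ∀ p ∈ dom, p.2 < 1 → ∀ (X₀ : E) (z₀ : ℂ), z₀ ≠ 0 →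
      RegAt (univ : Set Unit) (fun _ (q : (E × ℂ) × ℂ) => B q.1 + mfam a l W Ω p q.1.2 q.2) ()
        ((X₀, 0), z₀)) :
    ∃ l₀ : ℝ, ∀ l ≥ l₀, (∀ (X₀ : E) (y₀ z₀ : ℂ), z₀ ≠ 0 →
      0 ≤ (B (X₀, y₀) + plk l 1 W Ω y₀ z₀).re →
      RegAt (univ : Set Unit) (fun _ (q : (E × ℂ) × ℂ) => B q.1 + plk l 1 W Ω q.1.2 q.2) ()
        ((X₀, y₀), z₀)) →
      Tame dom (2 * (1 + CK a K2))
        (fun p (q : (E × ℂ) × ℂ) => B q.1 + mfam a l W Ω p q.1.2 q.2) := by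
  obtain ⟨l₁, hl₁⟩ := reg_lt hB ha hL hT
  obtain ⟨l₂, hl₂⟩ := hy0
  refine ⟨max (max l₁ l₂) 0, fun l hl hend => ?_⟩
  have hl1 : l₁ ≤ l := (le_max_left _ _).trans ((le_max_left _ _).trans hl)
  have hl2 : l₂ ≤ l := (le_max_right _ _).trans ((le_max_left _ _).trans hl)
  have hl0 : 0 ≤ l := (le_max_right _ _).trans hl
  refine tame_mfam' hL h1 hW hΩ hl0 hB fun p hp X₀ y₀ z₀ hz hRe => ?_
  rcases hp.2.1.2.lt_or_eq with h | h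
  · rcases eq_or_ne y₀ 0 with rfl | hy
    · exact hl₂ l hl2 p hp h X₀ z₀ hz
    · exact hl₁ l hl1 p hp h X₀ y₀ z₀ hy hz hRe
  · have hp1 : p.1 = 1 := by
      rcases hp.2.2 with h' | h'
      · rw [h] at h'; exact absurd h' one_ne_zero
      · exact h'
    have hp2 : p = (1, 1) := Prod.ext hp1 h
    rw [hp2, mfam_one] at hRe ⊢
    exact hend X₀ y₀ z₀ hz hRe

end Tau

end Vale.Agent.P268.T
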