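import Vale.Agent.P268.T.A306.TauCases
import Vale.Agent.P268.T.H740.Static
import Vale.Agent.P268.T.H830.Level

/-!
# P268, topological half: regularity of the path of links before its end
-/

set_option linter.unusedSectionVars false

namespace Vale.Agent.P268.T

open Set Filter Topology

namespace Tau

/-! ### Static phases -/

section Static

variable {a : ℕ} {K D : ℝ} {W : ℝ → ℝ} {Ω : ℝ → ℝ → ℝ}

theorem norm_ei_sub_le (x y : ℝ) : ‖ei x - ei y‖ ≤ |x - y| := by
  have h1 : ei x - ei y = ei y * (Complex.exp (Complex.I * ((x - y : ℝ) : ℂ)) - 1) := by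
    have : Complex.exp (Complex.I * ((x - y : ℝ) : ℂ)) = ei (x - y) := by
      unfold ei; rw [mul_comm]
    rw [this, mul_sub, mul_one, ← ei_add]
    ring_nf
  rw [h1, norm_mul, norm_ei, one_mul]
  exact Real.norm_exp_I_mul_ofReal_sub_one_le (x := x - y)

theorem wt_sub (t : ℝ) (g g' : ℝ) :
    Wt a t W g' - Wt a t W g = (1 - t) * (a + 1) * (g' - g) + t * (W g' - W g) := by
  unfold Wt; ring

theorem Ωt_sub1 (t : ℝ) (α α' g : ℝ) :
    Ωt a t Ω α' g - Ωt a t Ω α g = (1 - t) * (α' - α) + t * (Ω α' g - Ω α g) := by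
  unfold Ωt; ring

theorem Ωt_sub2 (t : ℝ) (α g g' : ℝ) :
    Ωt a t Ω α g' - Ωt a t Ω α g = (1 - t) * a * (g' - g) + t * (Ω α g' - Ω α g) := by
  unfold Ωt; ring

theorem abs_interp {t c x y M : ℝ} (ht : t ∈ Icc (0 : ℝ) 1) (hc : 0 ≤ c)
    (hy : |y| ≤ M * |x|) : |(1 - t) * c * x + t * y| ≤ (M + c) * |x| := by
  have h1 : |(1 - t) * c * x| ≤ c * |x| := by
    rw [abs_mul, abs_mul, abs_of_nonneg (by linarith [ht.2] : 0 ≤ 1 - t), abs_of_nonneg hc]
    have : (1 - t) * c ≤ 1 * c := mul_le_mul_of_nonneg_right (by linarith [ht.1]) hc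
    calc (1 - t) * c * |x| ≤ 1 * c * |x| := mul_le_mul_of_nonneg_right this (abs_nonneg _)
      _ = c * |x| := by ring
  have h2 : |t * y| ≤ M * |x| := by
    rw [abs_mul, abs_of_nonneg ht.1]
    calc t * |y| ≤ 1 * |y| := mul_le_mul_of_nonneg_right ht.2 (abs_nonneg _)
      _ ≤ M * |x| := by rw [one_mul]; exact hy
  refine (abs_add_le _ _).trans ?_
  linarith

theorem phFam_mfam (h : Lift a K D W Ω) {p : ℝ × ℝ} (hp : p ∈ dom) :
    PhFam (univ : Set Unit) (K + (a + 1)) (fun _ => p.1) (fun _ => Wt a p.2 W)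
      (fun _ => Ωt a p.2 Ω) where
  K0 := by have := h.K0; positivity
  τc := continuousOn_const
  τm := fun _ _ => hp.1
  Wc := fun _ => continuousOn_const
  Ωc := fun _ _ => continuousOn_const
  Wlip := fun _ _ g g' => by
    rw [wt_sub]
    exact abs_interp hp.2.1 (by positivity) (h.Wlip g g')
  lip1 := fun _ _ α α' g => by
    rw [Ωt_sub1]
    have h1 := abs_interp (c := 1) hp.2.1 zero_le_one (h.lip1 α α' g)
    rw [mul_one] at h1
    refine h1.trans (mul_le_mul_of_nonneg_right ?_ (abs_nonneg _))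
    have : (0 : ℝ) ≤ a := Nat.cast_nonneg a
    linarith
  lip2 := fun _ _ α g g' => by
    rw [Ωt_sub2]
    refine (abs_interp hp.2.1 (Nat.cast_nonneg a) (h.lip2 α g g')).trans ?_
    refine mul_le_mul_of_nonneg_right ?_ (abs_nonneg _)
    linarith
  Wper := fun _ _ g => by
    show ei (Wt a p.2 W (g + 2 * Real.pi)) = ei (Wt a p.2 W g)
    have e : Wt a p.2 W (g + 2 * Real.pi) = Wt a p.2 W g + ((a + 1 : ℕ) : ℝ) * (2 * Real.pi) := by
      unfold Wt
      rw [h.Wper]
      push_cast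
      ring
    rw [e, ei_add, ei_nat, mul_one]
  per1 := fun _ _ g α => by
    show ei (Ωt a p.2 Ω (α + 2 * Real.pi) g) = ei (Ωt a p.2 Ω α g)
    have e : Ωt a p.2 Ω (α + 2 * Real.pi) g = Ωt a p.2 Ω α g + 2 * Real.pi := by
      unfold Ωt
      rw [h.per1]
      ring
    rw [e, ei_add, ei_two_pi, mul_one]
  per2 := fun _ _ α g => by
    show ei (Ωt a p.2 Ω α (g + 2 * Real.pi)) = ei (Ωt a p.2 Ω α g)
    have e : Ωt a p.2 Ω α (g + 2 * Real.pi) = Ωt a p.2 Ω α g + (a : ℝ) * (2 * Real.pi) := by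
      unfold Ωt
      rw [h.per2]
      ring
    rw [e, ei_add, ei_nat, mul_one]

theorem sq_slope {κ x y : ℝ} (h1 : 0 ≤ x → κ * x ≤ y) (h2 : x ≤ 0 → y ≤ κ * x) :
    κ * x ^ 2 ≤ y * x := by
  rcases le_total 0 x with h | h
  · have := mul_le_mul_of_nonneg_right (h1 h) h
    rw [sq, ← mul_assoc]; exact this
  · have := mul_le_mul_of_nonpos_right (h2 h) h
    rw [sq, ← mul_assoc]; exact this

theorem slW_mfam (h : Lift a K D W Ω) {t : ℝ} (ht : t ∈ Icc (0 : ℝ) 1) (g₀ : ℝ) :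
    SlW (univ : Set Unit) (fun _ => Wt a t W) () g₀ (1 - t) := by
  refine ⟨1, one_pos, Eventually.of_forall fun _ g g' _ _ => ?_⟩
  have ha : (0 : ℝ) ≤ a := Nat.cast_nonneg a
  have h1 : 0 ≤ 1 - t := by linarith [ht.2]
  rw [wt_sub]
  refine sq_slope (fun hx => ?_) (fun hx => ?_)
  · have h2 := h.Wmono (by linarith : g ≤ g')
    have h3 : 0 ≤ t * (W g' - W g) := mul_nonneg ht.1 (by linarith)
    have h4 : 0 ≤ (1 - t) * a * (g' - g) := by positivity
    linarith
  · have h2 := h.Wmono (by linarith : g' ≤ g)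
    have h3 : t * (W g' - W g) ≤ 0 := mul_nonpos_of_nonneg_of_nonpos ht.1 (by linarith)
    have h4 : (1 - t) * a * (g' - g) ≤ 0 :=
      mul_nonpos_of_nonneg_of_nonpos (by positivity) hx
    linarith

theorem sl1_mfam (h : Lift a K D W Ω) {t : ℝ} (ht : t ∈ Icc (0 : ℝ) 1) (α₀ g₀ : ℝ) :
    Sl1 (univ : Set Unit) (fun _ => Ωt a t Ω) () α₀ g₀ (1 - t) := by
  refine ⟨1, one_pos, Eventually.of_forall fun _ α α' g _ _ _ => ?_⟩
  rw [Ωt_sub1]
  refine sq_slope (fun hx => ?_) (fun hx => ?_)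
  · have h2 : Ω α g ≤ Ω α' g := h.mono1 g (by linarith : α ≤ α')
    have h3 : 0 ≤ t * (Ω α' g - Ω α g) := mul_nonneg ht.1 (by linarith)
    linarith
  · have h2 : Ω α' g ≤ Ω α g := h.mono1 g (by linarith : α' ≤ α)
    have h3 : t * (Ω α' g - Ω α g) ≤ 0 := mul_nonpos_of_nonneg_of_nonpos ht.1 (by linarith)
    linarith

theorem sl2_mfam (h : Lift a K D W Ω) (ha : 1 ≤ a) {t : ℝ} (ht : t ∈ Icc (0 : ℝ) 1)
    (α₀ g₀ : ℝ) :
    Sl2 (univ : Set Unit) (fun _ => Ωt a t Ω) () α₀ g₀ (1 - t) (K + a) := by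
  have ha' : (1 : ℝ) ≤ a := by exact_mod_cast ha
  have h1 : 0 ≤ 1 - t := by linarith [ht.2]
  refine ⟨1, one_pos, Eventually.of_forall fun _ α g g' _ _ _ => ⟨?_, ?_⟩⟩
  · rw [Ωt_sub2]
    refine sq_slope (fun hx => ?_) (fun hx => ?_)
    · have h2 := h.mono2 α (by linarith : g ≤ g')
      have h3 : 0 ≤ t * (Ω α g' - Ω α g) := mul_nonneg ht.1 (by linarith)
      have h4 : 0 ≤ (1 - t) * (a - 1) * (g' - g) :=
        mul_nonneg (mul_nonneg h1 (by linarith)) hx
      linarith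
    · have h2 := h.mono2 α (by linarith : g' ≤ g)
      have h3 : t * (Ω α g' - Ω α g) ≤ 0 := mul_nonpos_of_nonneg_of_nonpos ht.1 (by linarith)
      have h4 : (1 - t) * (a - 1) * (g' - g) ≤ 0 :=
        mul_nonpos_of_nonneg_of_nonpos (mul_nonneg h1 (by linarith)) hx
      linarith
  · rw [Ωt_sub2]
    exact abs_interp ht (Nat.cast_nonneg a) (h.lip2 α g g')

/-- Slope in the first variable where the final phase turns. -/
theorem sl1_turn {σ t : ℝ} (ht : t ∈ Icc (0 : ℝ) 1) {α₀ g₀ : ℝ}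
    (hd : ∃ δ > 0, ∀ α α' g, |α - α₀| < δ → |α' - α₀| < δ → |g - g₀| < δ → α ≤ α' →
      σ * (α' - α) ≤ Ω α' g - Ω α g) :
    Sl1 (univ : Set Unit) (fun _ => Ωt a t Ω) () α₀ g₀ (min 1 σ) := by
  obtain ⟨δ, hδ, hd⟩ := hd
  have key : ∀ α α' g, |α - α₀| < δ → |α' - α₀| < δ → |g - g₀| < δ → α ≤ α' →
      min 1 σ * (α' - α) ≤ Ωt a t Ω α' g - Ωt a t Ω α g := by
    intro α α' g h1 h2 h3 h4
    have h5 := hd α α' g h1 h2 h3 h4
    rw [Ωt_sub1]
    have h6 : min 1 σ * (α' - α) ≤ 1 * (α' - α) :=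
      mul_le_mul_of_nonneg_right (min_le_left _ _) (by linarith)
    have h7 : min 1 σ * (α' - α) ≤ σ * (α' - α) :=
      mul_le_mul_of_nonneg_right (min_le_right _ _) (by linarith)
    have h8 := mul_le_mul_of_nonneg_left h6 (by linarith [ht.2] : 0 ≤ 1 - t)
    have h9 := mul_le_mul_of_nonneg_left (h7.trans h5) ht.1
    linarith
  refine ⟨δ, hδ, Eventually.of_forall fun _ α α' g h1 h2 h3 => sq_slope (fun hx => ?_)
    (fun hx => ?_)⟩
  · exact key α α' g h1 h2 h3 (by linarith)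
  · have := key α' α g h2 h1 h3 (by linarith)
    linarith

/-- Slope of the core phase where the final one turns. -/
theorem slW_turn {v t : ℝ} (ht : t ∈ Icc (0 : ℝ) 1) {g₀ δ : ℝ} (hδ : 0 < δ)
    (hd : ∀ g g', |g - g₀| < δ → |g' - g₀| < δ → g ≤ g' → v * (g' - g) ≤ W g' - W g) :
    SlW (univ : Set Unit) (fun _ => Wt a t W) () g₀ (min 1 v) := by
  have ha : (0 : ℝ) ≤ a := Nat.cast_nonneg a
  have key : ∀ g g', |g - g₀| < δ → |g' - g₀| < δ → g ≤ g' →
      min 1 v * (g' - g) ≤ Wt a t W g' - Wt a t W g := by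
    intro g g' h1 h2 h4
    have h5 := hd g g' h1 h2 h4
    rw [wt_sub]
    have h6 : min 1 v * (g' - g) ≤ 1 * (g' - g) :=
      mul_le_mul_of_nonneg_right (min_le_left _ _) (by linarith)
    have h7 : min 1 v * (g' - g) ≤ v * (g' - g) :=
      mul_le_mul_of_nonneg_right (min_le_right _ _) (by linarith)
    have h10 : 0 ≤ 1 - t := by linarith [ht.2]
    have h8 := mul_le_mul_of_nonneg_left h6 h10
    have h9 := mul_le_mul_of_nonneg_left (h7.trans h5) ht.1
    have h11 : 0 ≤ (1 - t) * a * (g' - g) := mul_nonneg (mul_nonneg h10 ha) (by linarith)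
    linarith
  refine ⟨δ, hδ, Eventually.of_forall fun _ g g' h1 h2 => sq_slope (fun hx => ?_)
    (fun hx => ?_)⟩
  · exact key g g' h1 h2 (by linarith)
  · have := key g' g h2 h1 (by linarith)
    linarith

/-- Slope in the second variable where the final phase does not depend on it. -/
theorem sl2_flat {t : ℝ} (ht : t ∈ Icc (0 : ℝ) 1) {α₀ g₀ δ : ℝ} (hδ : 0 < δ)
    (hd : ∀ α g g', |α - α₀| < δ → |g - g₀| < δ → |g' - g₀| < δ → Ω α g = Ω α g') :
    Sl2 (univ : Set Unit) (fun _ => Ωt a t Ω) () α₀ g₀ 0 ((1 - t) * a) := by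
  have h1 : 0 ≤ 1 - t := by linarith [ht.2]
  refine ⟨δ, hδ, Eventually.of_forall fun _ α g g' h2 h3 h4 => ⟨?_, ?_⟩⟩
  · rw [Ωt_sub2, hd α g g' h2 h3 h4, sub_self, mul_zero, add_zero, zero_mul]
    have : (1 - t) * a * (g' - g) * (g' - g) = (1 - t) * a * (g' - g) ^ 2 := by ring
    rw [this]
    positivity
  · rw [Ωt_sub2, hd α g g' h2 h3 h4, sub_self, mul_zero, add_zero, abs_mul,
      abs_of_nonneg (by positivity : 0 ≤ (1 - t) * a)]

theorem ei_wt_near (h : Lift a K D W Ω) {t : ℝ} (ht : t ∈ Icc (0 : ℝ) 1) (g : ℝ) :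
    ‖ei (Wt a t W g) - ei (W g)‖ ≤ (1 - t) * D := by
  refine (norm_ei_sub_le _ _).trans ?_
  have e : Wt a t W g - W g = -((1 - t) * (W g - (a + 1) * g)) := by unfold Wt; ring
  have h1 : 0 ≤ 1 - t := by linarith [ht.2]
  rw [e, abs_neg, abs_mul, abs_of_nonneg h1]
  exact mul_le_mul_of_nonneg_left (h.Wbd g) h1

theorem ei_Ωt_near (h : Lift a K D W Ω) {t : ℝ} (ht : t ∈ Icc (0 : ℝ) 1) (α g : ℝ) :
    ‖ei (Ωt a t Ω α g) - ei (Ω α g)‖ ≤ (1 - t) * D := by
  refine (norm_ei_sub_le _ _).trans ?_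
  have e : Ωt a t Ω α g - Ω α g = -((1 - t) * (Ω α g - (α + a * g))) := by unfold Ωt; ring
  have h1 : 0 ≤ 1 - t := by linarith [ht.2]
  rw [e, abs_neg, abs_mul, abs_of_nonneg h1]
  exact mul_le_mul_of_nonneg_left (h.bd α g) h1

theorem fr_re_ge {f : ℂ} (hf : ‖f‖ = 1) (g : ℂ) : 1 - ‖g - f‖ ≤ (fr f g).re := by
  have h1 : fr f g = 1 + fr f (g - f) := by
    unfold fr
    have : (starRingEnd ℂ) f * f = 1 := by
      rw [mul_comm, Complex.mul_conj, Complex.normSq_eq_norm_sq, hf]; simp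
    rw [mul_sub, this]; ring
  rw [h1, Complex.add_re, Complex.one_re]
  have := (abs_le.mp (abs_fr_re hf (g - f))).1
  linarith

theorem fr_re_comm (f g : ℂ) : (fr f g).re = (fr g f).re := by
  unfold fr
  simp only [Complex.mul_re, Complex.conj_re, Complex.conj_im]
  ring

end Static

variable {E : Type*} [NormedAddCommGroup E] [NormedSpace ℝ E]

/-- **Direction of the old variables.** -/
theorem case_X {B : E × ℂ → ℂ} {X₀ : E} {y₀ z₀ : ℂ}
    (hX : RegAt ((univ : Set Unit) ×ˢ (univ : Set ℂ)) (fun (p : Unit × ℂ) X => B (X, p.2))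
      ((), y₀) X₀) (m : ℂ → ℂ → ℂ) :
    RegAt (univ : Set Unit) (fun _ (q : (E × ℂ) × ℂ) => B q.1 + m q.1.2 q.2) ()
      ((X₀, y₀), z₀) := by
  refine RegAt.fst ?_
  refine RegAt.fst ?_
  have h1 : RegAt (((univ : Set Unit) ×ˢ (univ : Set ℂ)) ×ˢ (univ : Set ℂ))
      (fun (tb : (Unit × ℂ) × ℂ) X => B (X, tb.2)) (((), z₀), y₀) X₀ := by
    refine RegAt.param (s := (univ : Set Unit) ×ˢ (univ : Set ℂ))
      (φ := fun tb : (Unit × ℂ) × ℂ => ((), tb.2))
      (F := fun (p : Unit × ℂ) X => B (X, p.2)) ?_ (fun _ _ => ⟨mem_univ _, mem_univ _⟩) hX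
    exact continuousWithinAt_const.prodMk continuousWithinAt_snd
  have h2 := RegAt.add_const h1 (fun tb : (Unit × ℂ) × ℂ => m tb.2 tb.1.2)
  refine h2.congr ⟨univ, univ_mem, Eventually.of_forall fun tb X _ => ?_⟩
  exact add_comm _ _

/-- **Regularity before the end of the path**, `y₀, z₀ ≠ 0`. -/
theorem reg_lt [FiniteDimensional ℝ E] {B : E × ℂ → ℂ} {L : ℝ}
    (hB : Tame (univ : Set Unit) L (fun _ => B)) {a : ℕ} (ha : 1 ≤ a) {K D σ v : ℝ}
    {W : ℝ → ℝ} {Ω : ℝ → ℝ → ℝ} (hL : Lift a K D W Ω) (hT : Tri σ v W Ω) :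
    ∃ l₀ : ℝ, ∀ l ≥ l₀, ∀ p ∈ dom, p.2 < 1 → ∀ (X₀ : E) (y₀ z₀ : ℂ), y₀ ≠ 0 → z₀ ≠ 0 →
      0 ≤ (B (X₀, y₀) + mfam a l W Ω p y₀ z₀).re →
      RegAt (univ : Set Unit) (fun _ (q : (E × ℂ) × ℂ) => B q.1 + mfam a l W Ω p q.1.2 q.2) ()
        ((X₀, y₀), z₀) := by
  have hPE : ProperSpace E := FiniteDimensional.proper ℝ E
  have hPE2 : ProperSpace (E × ℂ) := FiniteDimensional.proper ℝ (E × ℂ)
  have hlip : ∀ X y y', ‖B (X, y) - B (X, y')‖ ≤ L * ‖y - y'‖ :=
    fun X y y' => hB.lip () (mem_univ _) X y y'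
  have hL0 : 0 ≤ L := by
    have := (norm_nonneg _).trans (hlip 0 1 0)
    simpa using this
  have hD0 : 0 ≤ D := (abs_nonneg _).trans (hL.Wbd 0)
  obtain ⟨ηX, hηX, hX⟩ := hB.exists_small (isCompact_univ)
  obtain ⟨C, hC, hCb⟩ := hB.fam.exists_bound (isCompact_univ)
  have hσ := hT.σ0
  have hv := hT.v0
  have ha' : (1 : ℝ) ≤ a := by exact_mod_cast ha
  have ha0 : (0 : ℝ) < a := by linarith
  have hv1 : 0 < min 1 v := lt_min one_pos hv
  have hσ1 : 0 < min 1 σ := lt_min one_pos hσ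
  -- the threshold
  obtain ⟨η, hη0, hη2, hηD, hηa⟩ : ∃ η : ℝ, 0 < η ∧ η ≤ 1 / 2 ∧ η * D ≤ 1 / 8 ∧
      η * a ≤ min 1 v / 8 := by
    refine ⟨min (1 / 2) (min (1 / (8 * (D + 1))) (min 1 v / (8 * a))), ?_, min_le_left _ _, ?_, ?_⟩
    · exact lt_min (by norm_num) (lt_min (by positivity) (by positivity))
    · have h1 : min (1 / 2) (min (1 / (8 * (D + 1))) (min 1 v / (8 * a))) ≤ 1 / (8 * (D + 1)) :=
        (min_le_right _ _).trans (min_le_left _ _)
      calc _ ≤ 1 / (8 * (D + 1)) * D := mul_le_mul_of_nonneg_right h1 hD0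
        _ ≤ 1 / (8 * (D + 1)) * (D + 1) := mul_le_mul_of_nonneg_left (by linarith) (by positivity)
        _ = 1 / 8 := by field_simp
    · have h1 : min (1 / 2) (min (1 / (8 * (D + 1))) (min 1 v / (8 * a))) ≤ min 1 v / (8 * a) :=
        (min_le_right _ _).trans (min_le_right _ _)
      calc _ ≤ min 1 v / (8 * a) * a := mul_le_mul_of_nonneg_right h1 ha0.le
        _ = min 1 v / 8 := by field_simp
  refine ⟨L + 1 + 2 * (L * (2 + 3 / η)) + 2 * (L * (2 + 3 / min 1 σ)) + 2 * L + 2 * (C / ηX),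
    fun l hl p hp hp2 X₀ y₀ z₀ hy hz hRe => ?_⟩
  have q1 : 0 ≤ L * (2 + 3 / η) := by positivity
  have q2 : 0 ≤ L * (2 + 3 / min 1 σ) := by positivity
  have q3 : 0 < C / ηX := by positivity
  have hl0 : 0 < l := by linarith
  have hLl : L < l := by linarith
  have hl1 : L * (2 + 3 / η) < l / 2 := by linarith
  have hl2 : L * (2 + 3 / min 1 σ) < l / 2 := by linarith
  have hPh := phFam_mfam hL hp
  have ht := hp.2.1
  have hτ := hp.1
  have hsl2 := sl2_mfam hL ha ht y₀.arg z₀.arg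
  have h1t : 0 < 1 - p.2 := by linarith
  rcases lt_trichotomy ‖z₀‖ (l * ‖y₀‖) with hout | hkink | hin
  · exact case_out hPh hL0 hlip hy hz hl0.le (mem_univ _) h1t hsl2 hout X₀
  · exact case_kink hPh hL0 hlip hy hz hl0.le hLl (mem_univ _) h1t hsl2 hkink.symm X₀
  · set c₀ := ei (Wt a p.2 W z₀.arg) with hc₀
    set u₀ := ei (Ωt a p.2 Ω y₀.arg z₀.arg) with hu₀
    have hcn : ‖c₀‖ = 1 := norm_ei _
    have hun : ‖u₀‖ = 1 := norm_ei _
    have hcomm : (fr c₀ u₀).re = (fr u₀ c₀).re := fr_re_comm _ _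
    by_cases hg : p.1 * (fr u₀ c₀).re ≤ 1 / 2
    · by_cases hη : η ≤ 1 - p.2
      · -- steep in `y`
        have hs1 : Sl1 (univ : Set Unit) (fun _ => Ωt a p.2 Ω) () y₀.arg z₀.arg η := by
          obtain ⟨δ, hδ, h1⟩ := sl1_mfam hL ht y₀.arg z₀.arg
          refine ⟨δ, hδ, h1.mono fun _ h2 α α' g h3 h4 h5 => ?_⟩
          refine le_trans ?_ (h2 α α' g h3 h4 h5)
          exact mul_le_mul_of_nonneg_right hη (sq_nonneg _)
        exact case_yin hPh hL0 hlip hy hz hl0 (mem_univ _) hη0 hl1 hs1 hin hg X₀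
      · push Not at hη
        -- near the end
        have hp1 : p.1 = 1 := by
          rcases hp.2.2 with h | h
          · rw [h] at hη; linarith
          · exact h
        have hηt : (1 - p.2) * D ≤ 1 / 8 :=
          (mul_le_mul_of_nonneg_right hη.le hD0).trans hηD
        rcases hT.tri y₀.arg z₀.arg with h1 | h1 | ⟨h1, δ, hδ, h2, h3⟩
        · exact case_yin hPh hL0 hlip hy hz hl0 (mem_univ _) hσ1 hl2 (sl1_turn ht h1) hin hg X₀
        · exfalso
          have e1 := ei_wt_near hL ht z₀.arg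
          have e2 := ei_Ωt_near hL ht y₀.arg z₀.arg
          rw [← hc₀] at e1
          rw [← hu₀, h1] at e2
          have e3 : ‖c₀ - u₀‖ ≤ 1 / 4 := by
            have : c₀ - u₀ = (c₀ - ei (W z₀.arg)) - (u₀ - ei (W z₀.arg)) := by ring
            rw [this]
            refine (norm_sub_le _ _).trans ?_
            linarith
          have e4 := fr_re_ge hun c₀
          rw [hp1, one_mul] at hg
          linarith
        · have hs2 := sl2_flat (a := a) ht hδ h2
          have hsW := slW_turn (a := a) ht hδ h3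
          by_cases hcase : l * ‖y₀‖ * ((1 - p.2) * a) < (‖z₀‖ - l * ‖y₀‖) * min 1 v
          · refine case_zin hPh hL0 hlip hy hz hl0.le (mem_univ _) (by rw [hp1]; exact one_pos)
              (by positivity) hsW hs2 hin ?_ X₀
            have hm : max (-(fr c₀ u₀).re) 0 ≤ 1 := by
              refine max_le ?_ zero_le_one
              have := (abs_le.mp ((abs_fr_re hcn u₀).trans hun.le)).1
              linarith
            rw [← hc₀, ← hu₀]
            calc l * ‖y₀‖ * ((1 - p.2) * a) * max (-(fr c₀ u₀).re) 0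
                ≤ l * ‖y₀‖ * ((1 - p.2) * a) * 1 :=
                  mul_le_mul_of_nonneg_left hm (by positivity)
              _ < (‖z₀‖ - l * ‖y₀‖) * min 1 v := by rw [mul_one]; exact hcase
              _ = p.1 * (‖z₀‖ - l * ‖y₀‖) * min 1 v := by rw [hp1]; ring
          · -- direction of the old variables
            push Not at hcase
            have hz0 : 0 < ‖z₀‖ := norm_pos_iff.mpr hz
            have hy0 : 0 < ‖y₀‖ := norm_pos_iff.mpr hy
            have e1 : ‖z₀‖ - l * ‖y₀‖ ≤ ‖z₀‖ / 8 := by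
              have f1 : l * ‖y₀‖ * ((1 - p.2) * a) ≤ ‖z₀‖ * (min 1 v / 8) := by
                refine mul_le_mul hin.le ?_ (by positivity) hz0.le
                exact (mul_le_mul_of_nonneg_right hη.le ha0.le).trans hηa
              have f2 : (‖z₀‖ - l * ‖y₀‖) * min 1 v ≤ ‖z₀‖ / 8 * min 1 v := by linarith
              exact le_of_mul_le_mul_right f2 hv1
            have e2 := ei_Ωt_near hL ht y₀.arg z₀.arg
            rw [← hu₀, h1] at e2
            have e3 : u₀.re ≤ -(7 / 8) := by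
              have f1 := (Complex.abs_re_le_norm (u₀ - -1)).trans (e2.trans hηt)
              have f2 := (abs_le.mp f1).2
              simp only [Complex.sub_re, Complex.neg_re, Complex.one_re] at f2
              linarith
            have e4 : c₀.re ≤ 1 := (Complex.re_le_norm _).trans hcn.le
            have hb : bm l y₀ z₀ = l * ‖y₀‖ := min_eq_left hin.le
            have e5 : (mfam a l W Ω p y₀ z₀).re =
                (‖z₀‖ - l * ‖y₀‖) * c₀.re + l * ‖y₀‖ * u₀.re := by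
              unfold mfam plk
              rw [hb, hp1, one_mul, ← hc₀, ← hu₀]
              simp [Complex.add_re]
            have e6 : (mfam a l W Ω p y₀ z₀).re ≤ -(‖z₀‖ / 2) := by
              rw [e5]
              have f1 : (‖z₀‖ - l * ‖y₀‖) * c₀.re ≤ (‖z₀‖ - l * ‖y₀‖) * 1 :=
                mul_le_mul_of_nonneg_left e4 (by linarith)
              have f2 : l * ‖y₀‖ * u₀.re ≤ l * ‖y₀‖ * (-(7 / 8)) :=
                mul_le_mul_of_nonneg_left e3 (by positivity)
              linarith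
            rw [Complex.add_re] at hRe
            have e7 : ‖z₀‖ / 2 ≤ (B (X₀, y₀)).re := by linarith
            have e8 : (B (X₀, y₀)).re ≤ C * ‖X₀‖ + L * ‖y₀‖ := by
              have f1 := hlip X₀ y₀ 0
              have f2 := hCb () (mem_univ _) (X₀, 0)
              have f3 : ‖((X₀, 0) : E × ℂ)‖ = ‖X₀‖ := by simp [Prod.norm_def]
              rw [f3] at f2
              rw [sub_zero] at f1
              have f4 := (abs_le.mp (Complex.abs_re_le_norm (B (X₀, y₀)))).2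
              have f5 : ‖B (X₀, y₀)‖ ≤ ‖B (X₀, y₀) - B (X₀, 0)‖ + ‖B (X₀, 0)‖ := by
                have := norm_add_le (B (X₀, y₀) - B (X₀, 0)) (B (X₀, 0))
                rwa [sub_add_cancel] at this
              linarith
            have e9 : C / ηX * ‖y₀‖ ≤ C * ‖X₀‖ := by
              have f1 : C / ηX ≤ l / 2 - L := by linarith
              have f2 := mul_le_mul_of_nonneg_right f1 hy0.le
              linarith
            have e10 : ‖y₀‖ ≤ ηX * ‖X₀‖ := by
              have f1 : C / ηX * ‖y₀‖ = C * (‖y₀‖ / ηX) := by ring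
              rw [f1] at e9
              have f2 := le_of_mul_le_mul_left e9 hC
              rw [div_le_iff₀ hηX] at f2
              linarith
            have hX0 : X₀ ≠ 0 := by
              rintro rfl
              rw [norm_zero, mul_zero] at e10
              linarith
            exact case_X (hX () (mem_univ _) X₀ hX0 y₀ e10 (by linarith)) (mfam a l W Ω p)
    · push Not at hg
      -- direction of `z`
      have hp1 : 0 < p.1 := by
        rcases hτ.1.eq_or_lt with h | h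
        · rw [← h, zero_mul] at hg; linarith
        · exact h
      have hpos : 0 < (fr u₀ c₀).re := by
        by_contra hneg
        push Not at hneg
        have := mul_nonpos_of_nonneg_of_nonpos hτ.1 hneg
        linarith
      have hs2 : Sl2 (univ : Set Unit) (fun _ => Ωt a p.2 Ω) () y₀.arg z₀.arg 0 (K + a) := by
        obtain ⟨δ, hδ, h1⟩ := hsl2
        refine ⟨δ, hδ, h1.mono fun _ h2 α g g' h3 h4 h5 => ⟨?_, (h2 α g g' h3 h4 h5).2⟩⟩
        refine le_trans ?_ (h2 α g g' h3 h4 h5).1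
        rw [zero_mul]; positivity
      refine case_zin hPh hL0 hlip hy hz hl0.le (mem_univ _) hp1
        (by have := hL.K0; positivity) (slW_mfam hL ht z₀.arg) hs2 hin ?_ X₀
      rw [← hc₀, ← hu₀, hcomm, max_eq_right (by linarith), mul_zero]
      have : 0 < ‖z₀‖ - l * ‖y₀‖ := by linarith
      positivity

end Tau

end Vale.Agent.P268.T
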